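import Vale.Agent.P011.D4Z.H342.OneC
import Vale.Agent.P011.D4Z.H493.Clg
import Vale.Agent.P011.D4Z.H553.Blk
import Vale.Agent.P011.D4Z.H408.LimX
import Vale.Agent.P011.D4Z.H319.Lim0H
import Vale.Agent.P011.D4Z.H64.Basis

/-!
Block D4Z (helper342): the statement at one place, for the group `Rs`.
-/

open Topology NumberField

set_option linter.unusedSectionVars false

namespace Vale.Agent.P011.D4Z.H342

open Vale.Agent.P011.MPQ Vale.Agent.P011.D4 Vale.Agent.P011.D4.Oct Vale.Agent.P011.D4X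
open Vale.Agent.P011.D4Z Vale.Agent.P011.E6
open scoped ComplexConjugate

section

variable {k : Type} [Field k] [Algebra k ℂ] {a b : kˣ}

theorem cjq_one : cjq (1 : Qt (up ℂ a) (up ℂ b)) = 1 := by
  ext <;> simp [cjq]

theorem cjq_neg_one : cjq (-1 : Qt (up ℂ a) (up ℂ b)) = -1 := by
  ext <;> simp [cjq]

theorem RQ_one (α t : ℂ) : RQ a b α t 1 := by
  rw [RQ, cjq_one, mul_one, one_mul]

theorem RQ_neg_one (α t : ℂ) : RQ a b α t (-1) := by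
  rw [RQ, cjq_neg_one, mul_neg, neg_mul, mul_one, one_mul]

theorem nrd_neg_one : nrd (-1 : Qt (up ℂ a) (up ℂ b)) = 1 := by
  simp [nrd]

theorem nrd_one' : nrd (1 : Qt (up ℂ a) (up ℂ b)) = 1 := by
  simp [nrd]

end

section

variable {k L E : Type} [Field k] [NumberField k] [Field L] [NumberField L] [Field E]
  [NumberField E] [Algebra k L] [Algebra k E] [Algebra L E]
  [IsScalarTower k L E] [NeZero (2 : E)] {ρ σ : E ≃ₐ[k] E} {ρL : L ≃ₐ[k] L} {α : E}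
  {a b c : kˣ} {q : Lˣ} (H : Hy ρ σ ρL α a b c q)

include H

/-- The sign move. -/
theorem sign_move [Algebra k ℂ] (W : E →ₐ[k] ℂ) (hW : (W : E →+* ℂ) ∈ Bd ρ σ q)
    (hW' : (cmp W ρ : E →+* ℂ) ∈ Bd ρ σ q) (hW'' : (cmp (cmp W ρ) ρ : E →+* ℂ) ∈ Bd ρ σ q) :
    ∃ X ∈ cl (Bd ρ σ q) (Rs ρ σ α a b c q), X ⟨W, hW⟩ = 1 ∧ X ⟨cmp W ρ, hW'⟩ = -1 ∧
      X ⟨cmp (cmp W ρ) ρ, hW''⟩ = -1 ∧
      ∀ V : Bd ρ σ q, V.1.comp (algebraMap k E) ≠ algebraMap k ℂ → X V = 1 := by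
  have h2 : NeZero (2 : ℂ) := ⟨two_ne_zero⟩
  obtain ⟨X, hX, x1, x2, x3, x4⟩ := zlim_x H W (cmp W ρ) (cmp (cmp W ρ) ρ) hW hW' hW'' rfl rfl
    (trip_std : Trip a b c (gi : Oct a b c) gj gl) (X1 := -1) (X2 := 1) (X3 := -1) nrd_neg_one
    nrd_one' nrd_neg_one (RQ_neg_one _ _) (RQ_one _ _) (RQ_neg_one _ _)
  refine ⟨X, hX, ?_, ?_, ?_, x4⟩
  · refine act_inj (a := up ℂ a) (b := up ℂ b) (c := up ℂ c) fun x => ?_
    have h3 := x1 x
    rw [tripO_std, tripO_std] at h3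
    rw [h3, act_one]
    apply Oct.ext
    · simp
    · simp
  · refine act_inj (a := up ℂ a) (b := up ℂ b) (c := up ℂ c) fun x => ?_
    have h3 := x2 x
    rw [tripO_std, tripO_std] at h3
    rw [h3, act_neg_one]
    apply Oct.ext
    · simp
    · simp
  · refine act_inj (a := up ℂ a) (b := up ℂ b) (c := up ℂ c) fun x => ?_
    have h3 := x3 x
    rw [tripO_std, tripO_std] at h3
    rw [h3, act_neg_one]
    apply Oct.ext
    · simp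
    · simp

/-- **The statement at one place**, from the end for a product of two reflections. -/
theorem one_place_end (hX : ∀ w : L →+* ℝ, w (algebraMap k L a) < 0 →
      w (algebraMap k L b) < 0 ∧ w (algebraMap k L c) < 0) [Algebra k ℂ]
    (W : E →ₐ[k] ℂ) (hW : (W : E →+* ℂ) ∈ Bd ρ σ q)
    (hW' : (cmp W ρ : E →+* ℂ) ∈ Bd ρ σ q) (hW'' : (cmp (cmp W ρ) ρ : E →+* ℂ) ∈ Bd ρ σ q)
    (h0 : (W (algebraMap L E q)).re < 0) (h1 : 0 < (W (ρ (algebraMap L E q))).re)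
    (hend : ∀ X Y Z : OctL ℂ a b c → OctL ℂ a b c,
      (∀ x y, X (star x * star y) = star (Y x) * star (Z y)) →
      (∀ x y, bil (Y x) (Y y) = bil x y) →
      (∀ x, Y (JW (cmp W ρ) ρ α q x) = JW (cmp W ρ) ρ α q (Y x)) →
      ∀ {u v : OctL ℂ a b c}, u ∈ VR W ρ α q → v ∈ VR W ρ α q → Oct.norm u = 1 →
      Oct.norm v = -1 → (∀ x, X x = D4Z.refl u (D4Z.refl v x)) → False)
    {g : OctL E a b c ≃ₗ[E] OctL E a b c} (hg : g ∈ GT ρ σ α a b c q)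
    {Y : Bd ρ σ q → Matrix (Fin 8) (Fin 8) ℂ}
    (hY : Y ∈ clg (Bd ρ σ q) (Rs ρ σ α a b c q) g) :
    ∃ Y' ∈ clg (Bd ρ σ q) (Rs ρ σ α a b c q) g, Y' ⟨W, hW⟩ = 1 ∧ Y' ⟨cmp W ρ, hW'⟩ = 1 ∧
      Y' ⟨cmp (cmp W ρ) ρ, hW''⟩ = 1 ∧
      ∀ V : Bd ρ σ q, V.1.comp (algebraMap k E) ≠ algebraMap k ℂ → Y' V = Y V := by
  have h2 : NeZero (2 : ℂ) := ⟨two_ne_zero⟩
  refine one_place_of (α := α) (ρ := ρ) (q := q) W (cmp W ρ) (cmp (cmp W ρ) ρ) hW hW' hW''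
    (fun Y hY => clg_bil H W hW hg hY) (fun Y hY => clg_bil H (cmp W ρ) hW' hg hY)
    (fun Y hY => clg_bil H (cmp (cmp W ρ) ρ) hW'' hg hY) (fun Y hY => clg_J W hW hg hY)
    (fun Y hY => clg_tri W (cmp W ρ) (cmp (cmp W ρ) ρ) hW hW' hW'' rfl rfl hg hY)
    (fun X hX Y hY => mul_mem_clg hX hY)
    (fun e e' he he' hB hN hn => H553.blk_mem_of H W hW ?_ ?_ h1 he he' hB hN hn)
    (exists_basis H W hW h0 h1 hX) (sign_move H W hW hW' hW'')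
    (fun Y hY u v hu hv nu nv _ hr => ?_) hY
  · intro W' W'' hW' hW'' h' h'' b' c' j l h X1 X2 X3 n1 n2 n3 r1 r2 r3
    obtain ⟨X, hX, x1, -, -, x4⟩ := zlim_x H W W' W'' hW hW' hW'' h' h'' h n1 n2 n3 r1 r2 r3
    exact ⟨X, hX, x1, x4⟩
  · intro b' c' j l h X0 n0 r0
    exact zlim_0 H W hW h n0 r0
  · exact hend (fun x => act (Y ⟨W, hW⟩) x) (fun x => act (Y ⟨cmp W ρ, hW'⟩) x)
      (fun x => act (Y ⟨cmp (cmp W ρ) ρ, hW''⟩) x)
      (fun x y => clg_tri W (cmp W ρ) (cmp (cmp W ρ) ρ) hW hW' hW'' rfl rfl hg hY x y)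
      (fun x y => clg_bil H (cmp W ρ) hW' hg hY x y)
      (fun x => clg_J (cmp W ρ) hW' hg hY x) hu hv nu nv hr

end

end Vale.Agent.P011.D4Z.H342
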