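import Vale.Agent.P011.D4Z.H342.OneD
import Vale.Agent.P011.D4Z.H553.BlkI
import Vale.Agent.P011.D4Z.H64.BasisI

/-!
Block D4Z (helper342): the statement at one place, noncyclic cubic extensions.
-/

open Topology NumberField

set_option linter.unusedSectionVars false

namespace Vale.Agent.P011.D4Z.H342

open Vale.Agent.P011.MPQ Vale.Agent.P011.D4 Vale.Agent.P011.D4.Oct Vale.Agent.P011.D4X
open Vale.Agent.P011.D4Z Vale.Agent.P011.E6 Vale.Agent.P011.D4Y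
open scoped ComplexConjugate

section

variable {k L E : Type} [Field k] [NumberField k] [Field L] [NumberField L] [Field E]
  [NumberField E] [Algebra k L] [Algebra k E] [Algebra L E]
  [IsScalarTower k L E] [NeZero (2 : E)] {ρ σ ι : E ≃ₐ[k] E} {α : E}
  {a b c : kˣ} {q : Lˣ}

/-- The sign move, from the limits. -/
theorem sign_move_of {G : Subgroup (OctL E a b c ≃ₗ[E] OctL E a b c)} [Algebra k ℂ]
    [NeZero (2 : ℂ)] (W : E →ₐ[k] ℂ) (hW : (W : E →+* ℂ) ∈ Bd ρ σ q)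
    (hW' : (cmp W ρ : E →+* ℂ) ∈ Bd ρ σ q) (hW'' : (cmp (cmp W ρ) ρ : E →+* ℂ) ∈ Bd ρ σ q)
    (hzx : ∀ {X1 X2 X3 : Qt (up ℂ a) (up ℂ b)}, nrd X1 = 1 → nrd X2 = 1 → nrd X3 = 1 →
      RQ a b (W α) (W (algebraMap L E q)) X1 →
      RQ a b (W α) (cmp W ρ (algebraMap L E q)) X2 →
      RQ a b (W α) (cmp (cmp W ρ) ρ (algebraMap L E q)) X3 →
      ∃ X ∈ cl (Bd ρ σ q) G,
        (∀ y : OctL ℂ a b c, act (X ⟨W, hW⟩) (tripO ℂ (trip_std : Trip a b c gi gj gl) y) =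
          tripO ℂ (trip_std : Trip a b c gi gj gl) ⟨X1 * y.fst * star X3, y.snd * star X2⟩) ∧
        (∀ y : OctL ℂ a b c, act (X ⟨cmp W ρ, hW'⟩)
            (tripO ℂ (trip_std : Trip a b c gi gj gl) y) =
          tripO ℂ (trip_std : Trip a b c gi gj gl) ⟨X2 * y.fst * star X1, y.snd * star X3⟩) ∧
        (∀ y : OctL ℂ a b c, act (X ⟨cmp (cmp W ρ) ρ, hW''⟩)
            (tripO ℂ (trip_std : Trip a b c gi gj gl) y) =
          tripO ℂ (trip_std : Trip a b c gi gj gl) ⟨X3 * y.fst * star X2, y.snd * star X1⟩) ∧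
        ∀ V : Bd ρ σ q, V.1.comp (algebraMap k E) ≠ algebraMap k ℂ → X V = 1) :
    ∃ X ∈ cl (Bd ρ σ q) G, X ⟨W, hW⟩ = 1 ∧ X ⟨cmp W ρ, hW'⟩ = -1 ∧
      X ⟨cmp (cmp W ρ) ρ, hW''⟩ = -1 ∧
      ∀ V : Bd ρ σ q, V.1.comp (algebraMap k E) ≠ algebraMap k ℂ → X V = 1 := by
  obtain ⟨X, hX, x1, x2, x3, x4⟩ := hzx (X1 := -1) (X2 := 1) (X3 := -1) nrd_neg_one
    nrd_one' nrd_neg_one (RQ_neg_one _ _) (RQ_one _ _) (RQ_neg_one _ _)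
  refine ⟨X, hX, ?_, ?_, ?_, x4⟩
  · refine act_inj (a := up ℂ a) (b := up ℂ b) (c := up ℂ c) fun x => ?_
    have h3 := x1 x
    rw [D4X.tripO_std, D4X.tripO_std] at h3
    rw [h3, act_one]
    apply Oct.ext
    · simp
    · simp
  · refine act_inj (a := up ℂ a) (b := up ℂ b) (c := up ℂ c) fun x => ?_
    have h3 := x2 x
    rw [D4X.tripO_std, D4X.tripO_std] at h3
    rw [h3, act_neg_one]
    apply Oct.ext
    · simp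
    · simp
  · refine act_inj (a := up ℂ a) (b := up ℂ b) (c := up ℂ c) fun x => ?_
    have h3 := x3 x
    rw [D4X.tripO_std, D4X.tripO_std] at h3
    rw [h3, act_neg_one]
    apply Oct.ext
    · simp
    · simp

/-- **The statement at one place**, noncyclic cubic extensions, from the relations and the
limits. -/
theorem one_placeI_of (H : HyI ρ σ ι α a b c q) (hX : ∀ τ : k →+* ℝ, τ a < 0 → τ b < 0 ∧ τ c < 0)
    {G : Subgroup (OctL E a b c ≃ₗ[E] OctL E a b c)} {g : OctL E a b c ≃ₗ[E] OctL E a b c}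
    [Algebra k ℂ] (W : E →ₐ[k] ℂ) (hW : (W : E →+* ℂ) ∈ Bd ρ σ q)
    (hW' : (cmp W ρ : E →+* ℂ) ∈ Bd ρ σ q) (hW'' : (cmp (cmp W ρ) ρ : E →+* ℂ) ∈ Bd ρ σ q)
    (h0 : (W (algebraMap L E q)).re < 0) (h1 : 0 < (W (ρ (algebraMap L E q))).re)
    (hbil : ∀ (U : E →ₐ[k] ℂ) (hU : (U : E →+* ℂ) ∈ Bd ρ σ q),
      ∀ Y ∈ clg (Bd ρ σ q) G g, ∀ x y : OctL ℂ a b c,
      bil (act (Y ⟨U, hU⟩) x) (act (Y ⟨U, hU⟩) y) = bil x y)
    (hJ : ∀ (U : E →ₐ[k] ℂ) (hU : (U : E →+* ℂ) ∈ Bd ρ σ q),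
      ∀ Y ∈ clg (Bd ρ σ q) G g, ∀ x : OctL ℂ a b c,
      act (Y ⟨U, hU⟩) (JW U ρ α q x) = JW U ρ α q (act (Y ⟨U, hU⟩) x))
    (htri : ∀ Y ∈ clg (Bd ρ σ q) G g, ∀ x y : OctL ℂ a b c,
      act (Y ⟨W, hW⟩) (star x * star y) =
      star (act (Y ⟨cmp W ρ, hW'⟩) x) * star (act (Y ⟨cmp (cmp W ρ) ρ, hW''⟩) y))
    (hzx : ∀ (W' W'' : E →ₐ[k] ℂ) (hW' : (W' : E →+* ℂ) ∈ Bd ρ σ q)
      (hW'' : (W'' : E →+* ℂ) ∈ Bd ρ σ q),
      W' = cmp W ρ → W'' = cmp W' ρ → ∀ {b' c' : kˣ} {j l : Oct a b c}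
      (h : Trip a b' c' gi j l) {X1 X2 X3 : Qt (up ℂ a) (up ℂ b')}, nrd X1 = 1 → nrd X2 = 1 →
      nrd X3 = 1 → RQ a b' (W α) (W (algebraMap L E q)) X1 →
      RQ a b' (W α) (W' (algebraMap L E q)) X2 → RQ a b' (W α) (W'' (algebraMap L E q)) X3 →
      ∃ X ∈ cl (Bd ρ σ q) G,
        (∀ y : OctL ℂ a b' c', act (X ⟨W, hW⟩) (tripO ℂ h y) =
          tripO ℂ h ⟨X1 * y.fst * star X3, y.snd * star X2⟩) ∧
        (∀ y : OctL ℂ a b' c', act (X ⟨W', hW'⟩) (tripO ℂ h y) =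
          tripO ℂ h ⟨X2 * y.fst * star X1, y.snd * star X3⟩) ∧
        (∀ y : OctL ℂ a b' c', act (X ⟨W'', hW''⟩) (tripO ℂ h y) =
          tripO ℂ h ⟨X3 * y.fst * star X2, y.snd * star X1⟩) ∧
        ∀ V : Bd ρ σ q, V.1.comp (algebraMap k E) ≠ algebraMap k ℂ → X V = 1)
    (hz0 : ∀ {b' c' : kˣ} {j l : Oct a b c} (h : Trip a b' c' gi j l)
      {X0 : Qt (up ℂ a) (up ℂ b')}, nrd X0 = 1 → cjq X0 = X0 →
      ∃ X ∈ cl (Bd ρ σ q) G,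
        (∀ y : OctL ℂ a b' c', act (X ⟨W, hW⟩) (tripO ℂ h y) =
          tripO ℂ h ⟨y.fst, X0 * y.snd⟩) ∧
        ∀ V : Bd ρ σ q, V.1.comp (algebraMap k E) ≠ algebraMap k ℂ → X V = 1)
    (hend : ∀ X Y Z : OctL ℂ a b c → OctL ℂ a b c,
      (∀ x y, X (star x * star y) = star (Y x) * star (Z y)) →
      (∀ x y, bil (Y x) (Y y) = bil x y) →
      (∀ x, Y (JW (cmp W ρ) ρ α q x) = JW (cmp W ρ) ρ α q (Y x)) →
      ∀ {u v : OctL ℂ a b c}, u ∈ VR W ρ α q → v ∈ VR W ρ α q → Oct.norm u = 1 →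
      Oct.norm v = -1 → (∀ x, X x = D4Z.refl u (D4Z.refl v x)) → False)
    {Y : Bd ρ σ q → Matrix (Fin 8) (Fin 8) ℂ} (hY : Y ∈ clg (Bd ρ σ q) G g) :
    ∃ Y' ∈ clg (Bd ρ σ q) G g, Y' ⟨W, hW⟩ = 1 ∧ Y' ⟨cmp W ρ, hW'⟩ = 1 ∧
      Y' ⟨cmp (cmp W ρ) ρ, hW''⟩ = 1 ∧
      ∀ V : Bd ρ σ q, V.1.comp (algebraMap k E) ≠ algebraMap k ℂ → Y' V = Y V := by
  have h2 : NeZero (2 : ℂ) := ⟨two_ne_zero⟩
  refine one_place_of (α := α) (ρ := ρ) (q := q) W (cmp W ρ) (cmp (cmp W ρ) ρ) hW hW' hW''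
    (hbil W hW) (hbil _ hW') (hbil _ hW'') (hJ W hW) htri
    (fun X hX Y hY => mul_mem_clg hX hY)
    (fun e e' he he' hB hN hn => H553.blk_mem_ofI H W hW ?_ hz0 h1 he he' hB hN hn)
    (exists_basisI H W hW h0 h1 hX)
    (sign_move_of (α := α) W hW hW' hW'' fun n1 n2 n3 r1 r2 r3 =>
      hzx _ _ hW' hW'' rfl rfl trip_std n1 n2 n3 r1 r2 r3)
    (fun Y hY u v hu hv nu nv _ hr => ?_) hY
  · intro W' W'' hW' hW'' h' h'' b' c' j l h X1 X2 X3 n1 n2 n3 r1 r2 r3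
    obtain ⟨X, hX, x1, -, -, x4⟩ := hzx W' W'' hW' hW'' h' h'' h n1 n2 n3 r1 r2 r3
    exact ⟨X, hX, x1, x4⟩
  · exact hend (fun x => act (Y ⟨W, hW⟩) x) (fun x => act (Y ⟨cmp W ρ, hW'⟩) x)
      (fun x => act (Y ⟨cmp (cmp W ρ) ρ, hW''⟩) x) (htri Y hY) (hbil _ hW' Y hY)
      (hJ _ hW' Y hY) hu hv nu nv hr

end

end Vale.Agent.P011.D4Z.H342
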