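import Mathlib.Analysis.Complex.Basic
import Mathlib.Tactic.FinCases

/-!
Block D4Z (helper342): elimination in the orthogonal group of signature (2, 6) by products of two
reflections.
-/

namespace Vale.Agent.P011.D4Z.El

/-- The signs. -/
def sg : Fin 8 → ℝ := ![1, 1, -1, -1, -1, -1, -1, -1]

/-- The bilinear form of signature (2, 6). -/
noncomputable def bf (x y : Fin 8 → ℝ) : ℝ := ∑ i, sg i * x i * y i

/-- The reflection. -/
noncomputable def refl (e x : Fin 8 → ℝ) : Fin 8 → ℝ := x - (2 * bf x e / bf e e) • e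

/-- The three coordinate blocks. -/
def Blk (B : Finset (Fin 8)) : Prop := B = {0, 1, 2, 3} ∨ B = {2, 3, 4, 5} ∨ B = {4, 5, 6, 7}

namespace H342

theorem sg_sq (i : Fin 8) : sg i * sg i = 1 := by
  fin_cases i <;> norm_num [sg]

theorem sg_ne (i : Fin 8) : sg i ≠ 0 := fun h => by
  have := sg_sq i
  rw [h] at this
  norm_num at this

theorem sg_neg {i : Fin 8} (h : 1 < i.val) : sg i = -1 := by
  fin_cases i <;> simp_all [sg]

theorem bf_comm (x y : Fin 8 → ℝ) : bf x y = bf y x :=
  Finset.sum_congr rfl fun _ _ => by ring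

theorem bf_single (x : Fin 8 → ℝ) (i : Fin 8) (r : ℝ) :
    bf x (r • Pi.single i (1 : ℝ)) = sg i * x i * r := by
  rw [bf, Finset.sum_eq_single i]
  · simp
  · intro j _ hj
    simp [Pi.single_eq_of_ne hj]
  · intro h
    exact absurd (Finset.mem_univ i) h

theorem bf_add_right (x y z : Fin 8 → ℝ) : bf x (y + z) = bf x y + bf x z := by
  rw [bf, bf, bf, ← Finset.sum_add_distrib]
  exact Finset.sum_congr rfl fun _ _ => by rw [Pi.add_apply]; ring

/-- The linear map of the plane of the coordinates `i` and `j`. -/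
def mv (i j : Fin 8) (p q r s : ℝ) (x : Fin 8 → ℝ) : Fin 8 → ℝ := fun m =>
  if m = i then p * x i + q * x j else if m = j then r * x i + s * x j else x m

theorem mv_left (i j : Fin 8) (p q r s : ℝ) (x : Fin 8 → ℝ) :
    mv i j p q r s x i = p * x i + q * x j := if_pos rfl

theorem mv_right {i j : Fin 8} (hij : i ≠ j) (p q r s : ℝ) (x : Fin 8 → ℝ) :
    mv i j p q r s x j = r * x i + s * x j := by
  rw [mv, if_neg hij.symm, if_pos rfl]

theorem mv_of_ne {i j m : Fin 8} (h1 : m ≠ i) (h2 : m ≠ j) (p q r s : ℝ) (x : Fin 8 → ℝ) :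
    mv i j p q r s x m = x m := by
  rw [mv, if_neg h1, if_neg h2]

/-- A product of two reflections in a coordinate plane. -/
theorem refl_refl {i j : Fin 8} (hij : i ≠ j) {u w : ℝ} (h : u * u + sg i * sg j * (w * w) = 1)
    (x : Fin 8 → ℝ) :
    refl (u • Pi.single i (1 : ℝ) + w • Pi.single j (1 : ℝ)) (refl ((1 : ℝ) • Pi.single i (1 : ℝ))
      x) = mv i j (2 * u * u - 1) (-(2 * (sg i * sg j) * u * w)) (2 * u * w)
        (1 - 2 * (sg i * sg j) * (w * w)) x := by
  have hi : ∀ y : Fin 8 → ℝ, refl ((1 : ℝ) • Pi.single i (1 : ℝ)) y =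
      y - (2 * y i) • Pi.single i (1 : ℝ) := by
    intro y
    rw [refl, bf_single, bf_single, one_smul, Pi.single_eq_same]
    congr 2
    field_simp [sg_ne i]
  have e1 : ∀ y : Fin 8 → ℝ, bf y (u • Pi.single i (1 : ℝ) + w • Pi.single j (1 : ℝ)) =
      sg i * y i * u + sg j * y j * w := by
    intro y
    rw [bf_add_right, bf_single, bf_single]
  have e2 : bf (u • Pi.single i (1 : ℝ) + w • Pi.single j (1 : ℝ))
      (u • Pi.single i (1 : ℝ) + w • Pi.single j (1 : ℝ)) = sg i := by
    rw [e1]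
    simp only [Pi.add_apply, Pi.smul_apply, Pi.single_eq_same, smul_eq_mul, mul_one,
      Pi.single_eq_of_ne hij, Pi.single_eq_of_ne hij.symm, mul_zero, add_zero, zero_add]
    have := sg_sq i
    linear_combination sg i * h - sg j * (w * w) * this
  rw [hi, refl, e1, e2]
  have hs := sg_sq i
  have h3 : ∀ t : ℝ, t / sg i = sg i * t := fun t => by
    rw [div_eq_iff (sg_ne i)]
    linear_combination -t * hs
  rw [h3]
  funext m
  by_cases h1 : m = i
  · subst h1
    rw [mv_left]
    simp only [Pi.add_apply, Pi.sub_apply, Pi.smul_apply, Pi.single_eq_same, smul_eq_mul, mul_one,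
      Pi.single_eq_of_ne hij, Pi.single_eq_of_ne hij.symm, mul_zero, add_zero, sub_zero]
    linear_combination (2 * u * x m * u) * hs
  · by_cases h2 : m = j
    · subst h2
      rw [mv_right hij]
      simp only [Pi.add_apply, Pi.sub_apply, Pi.smul_apply, Pi.single_eq_same, smul_eq_mul,
        mul_one, Pi.single_eq_of_ne hij, Pi.single_eq_of_ne hij.symm, mul_zero, zero_add,
        sub_zero]
      linear_combination (2 * u * x i * w) * hs
    · rw [mv_of_ne h1 h2]
      simp only [Pi.add_apply, Pi.sub_apply, Pi.smul_apply, smul_eq_mul,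
        Pi.single_eq_of_ne h1, Pi.single_eq_of_ne h2, mul_zero, add_zero, sub_zero]

theorem exists_half {c s : ℝ} (h : c * c + s * s = 1) :
    ∃ u w : ℝ, u * u + w * w = 1 ∧ c = 2 * u * u - 1 ∧ s = 2 * u * w := by
  by_cases hc : c = -1
  · refine ⟨0, 1, by ring, by rw [hc]; ring, ?_⟩
    rw [hc] at h
    have : s * s = 0 := by linarith
    rw [mul_self_eq_zero.1 this]
    ring
  · have h1 : -1 < c := lt_of_le_of_ne (by nlinarith [mul_self_nonneg s]) (Ne.symm hc)
    have h2 : 0 < (1 + c) / 2 := by linarith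
    have h3 : 0 < Real.sqrt ((1 + c) / 2) := Real.sqrt_pos.2 h2
    have h4 : Real.sqrt ((1 + c) / 2) * Real.sqrt ((1 + c) / 2) = (1 + c) / 2 :=
      Real.mul_self_sqrt h2.le
    set u := Real.sqrt ((1 + c) / 2) with hu
    have hw : u * (s / (2 * u)) = s / 2 := by field_simp
    have hw2 : (s / (2 * u)) * (s / (2 * u)) * (u * u) = s * s / 4 := by
      have h7 : u * (s / (2 * u)) * (u * (s / (2 * u))) = s / 2 * (s / 2) := by rw [hw]
      linear_combination h7
    refine ⟨u, s / (2 * u), ?_, by linarith, by linear_combination -2 * hw⟩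
    have h5 : u * u ≠ 0 := (mul_pos h3 h3).ne'
    apply mul_right_cancel₀ h5
    rw [add_mul, hw2, h4]
    have h6 : s * s = 1 - c * c := by linarith
    rw [h6]
    ring

theorem exists_halfb {c s : ℝ} (h : c * c - s * s = 1) (hc : 0 < c) :
    ∃ u w : ℝ, u * u - w * w = 1 ∧ c = 2 * u * u - 1 ∧ s = 2 * u * w := by
  have h2 : 0 < (1 + c) / 2 := by linarith
  have h3 : 0 < Real.sqrt ((1 + c) / 2) := Real.sqrt_pos.2 h2
  have h4 : Real.sqrt ((1 + c) / 2) * Real.sqrt ((1 + c) / 2) = (1 + c) / 2 :=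
    Real.mul_self_sqrt h2.le
  set u := Real.sqrt ((1 + c) / 2) with hu
  have hw : u * (s / (2 * u)) = s / 2 := by field_simp
  have hw2 : (s / (2 * u)) * (s / (2 * u)) * (u * u) = s * s / 4 := by
    have h7 : u * (s / (2 * u)) * (u * (s / (2 * u))) = s / 2 * (s / 2) := by rw [hw]
    linear_combination h7
  refine ⟨u, s / (2 * u), ?_, by linarith, by linear_combination -2 * hw⟩
  have h5 : u * u ≠ 0 := (mul_pos h3 h3).ne'
  apply mul_right_cancel₀ h5
  rw [sub_mul, hw2, h4]
  have h6 : s * s = c * c - 1 := by linarith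
  rw [h6]
  ring

/-- The columns with a large number are basis vectors. -/
def Std (m : ℕ) (G : Fin 8 → Fin 8 → ℝ) : Prop := ∀ j : Fin 8, m < j.val → G j = Pi.single j 1

theorem mv_single {i j m : Fin 8} (h1 : m ≠ i) (h2 : m ≠ j) (p q r s : ℝ) :
    mv i j p q r s (Pi.single m 1) = Pi.single m 1 := by
  funext n
  by_cases hi : n = i
  · rw [hi, mv_left, Pi.single_eq_of_ne h1.symm, Pi.single_eq_of_ne h2.symm]
    ring
  · by_cases hj : n = j
    · by_cases hij : i = j
      · rw [hj, ← hij, mv_left, hij, Pi.single_eq_of_ne h2.symm]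
        ring
      · rw [hj, mv_right hij, Pi.single_eq_of_ne h1.symm, Pi.single_eq_of_ne h2.symm]
        ring
    · rw [mv_of_ne hi hj]

theorem Std.mv {m : ℕ} {G : Fin 8 → Fin 8 → ℝ} (h : Std m G) {i j : Fin 8} (hi : i.val ≤ m)
    (hj : j.val ≤ m) (p q r s : ℝ) : Std m fun n => H342.mv i j p q r s (G n) := by
  intro n hn
  change H342.mv i j p q r s (G n) = _
  rw [h n hn]
  exact mv_single (fun h => absurd (h ▸ hi) (not_le.2 hn))
    (fun h => absurd (h ▸ hj) (not_le.2 hn)) p q r s

section elim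

variable {P : (Fin 8 → Fin 8 → ℝ) → Prop}
  (hrot : ∀ (i j : Fin 8), i.val + 1 = j.val → i.val ≠ 1 → ∀ c s : ℝ, c * c + s * s = 1 →
    ∀ G, P G → P fun n => mv i j c (-s) s c (G n))
  (hboo : ∀ c s : ℝ, c * c - s * s = 1 → 0 < c → ∀ G, P G → P fun n => mv 0 2 c s s c (G n))

include hrot

/-- The last coordinate of a column can be killed. -/
theorem down1 {m t : ℕ} (ht : 2 < t) (htm : t ≤ m) (hm : m < 8) (col : Fin 8)
    {G : Fin 8 → Fin 8 → ℝ} (h : P G) (hS : Std m G) (hc : ∀ j : Fin 8, t < j.val → G col j = 0) :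
    ∃ G', P G' ∧ Std m G' ∧ ∀ j : Fin 8, t - 1 < j.val → G' col j = 0 := by
  set i : Fin 8 := ⟨t - 1, by omega⟩ with hi
  set j : Fin 8 := ⟨t, by omega⟩ with hj
  have hij : i ≠ j := fun h => by
    have := congrArg Fin.val h
    simp only [hi, hj] at this
    omega
  by_cases h0 : G col j = 0
  · refine ⟨G, h, hS, fun n hn => ?_⟩
    rcases Nat.lt_or_ge t n.val with h1 | h1
    · exact hc n h1
    · have : n = j := Fin.ext (by simp only [hj]; omega)
      rw [this]
      exact h0
  · set x := G col i with hx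
    set y := G col j with hy
    have hr : 0 < x * x + y * y := by
      have := mul_self_pos.2 h0
      nlinarith [mul_self_nonneg x]
    have hq : 0 < Real.sqrt (x * x + y * y) := Real.sqrt_pos.2 hr
    have hq2 : Real.sqrt (x * x + y * y) * Real.sqrt (x * x + y * y) = x * x + y * y :=
      Real.mul_self_sqrt hr.le
    set r := Real.sqrt (x * x + y * y) with hrr
    refine ⟨_, hrot i j (by simp only [hi, hj]; omega) (by simp only [hi]; omega) (x / r)
      (-(y / r)) ?_ G h, hS.mv (by simp only [hi]; omega) (by simp only [hj]; omega) _ _ _ _,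
      fun n hn => ?_⟩
    · have hr0 := hq.ne'
      field_simp
      rw [sq r, hq2]
      ring
    · change mv i j _ _ _ _ (G col) n = 0
      rcases Nat.lt_or_ge t n.val with h1 | h1
      · rw [mv_of_ne (fun h => by rw [h] at h1; simp only [hi] at h1; omega)
          (fun h => by rw [h] at h1; simp only [hj] at h1; omega)]
        exact hc n h1
      · have : n = j := Fin.ext (by simp only [hj]; omega)
        rw [this, mv_right hij]
        change -(y / r) * x + x / r * y = 0
        ring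

theorem down {m : ℕ} (hm : m < 8) (col : Fin 8) : ∀ (d t : ℕ), t = d + 2 → t ≤ m →
    ∀ {G : Fin 8 → Fin 8 → ℝ}, P G → Std m G → (∀ j : Fin 8, t < j.val → G col j = 0) →
    ∃ G', P G' ∧ Std m G' ∧ ∀ j : Fin 8, 2 < j.val → G' col j = 0 := by
  intro d
  induction d with
  | zero =>
    intro t ht _ G h hS hc
    exact ⟨G, h, hS, by rw [ht] at hc; exact hc⟩
  | succ d ih =>
    intro t ht htm G h hS hc
    obtain ⟨G1, h1, h2, h3⟩ := down1 hrot (by omega) htm hm col h hS hc
    exact ih (t - 1) (by omega) (by omega) h1 h2 h3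

include hboo

/-- A column with norm `-1` which is supported in the first three coordinates. -/
theorem mid1 {m : ℕ} (h2m : 2 ≤ m) (hO : ∀ G, P G → ∀ i j, bf (G i) (G j) = if i = j then sg i
    else 0) (col : Fin 8) (hcol : sg col = -1) {G : Fin 8 → Fin 8 → ℝ} (h : P G) (hS : Std m G)
    (hc : ∀ j : Fin 8, 2 < j.val → G col j = 0) :
    ∃ (G' : Fin 8 → Fin 8 → ℝ) (t : ℝ), P G' ∧ Std m G' ∧ (t = 1 ∨ t = -1) ∧
      G' col = t • Pi.single 2 (1 : ℝ) := by
  -- the coordinate `1`
  obtain ⟨G1, h1, hS1, hc1, h01⟩ : ∃ G', P G' ∧ Std m G' ∧ (∀ j : Fin 8, 2 < j.val →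
      G' col j = 0) ∧ G' col 1 = 0 := by
    by_cases h0 : G col 1 = 0
    · exact ⟨G, h, hS, hc, h0⟩
    · set x := G col 0 with hx
      set y := G col 1 with hy
      have hr : 0 < x * x + y * y := by
        have := mul_self_pos.2 h0
        nlinarith [mul_self_nonneg x]
      have hq : 0 < Real.sqrt (x * x + y * y) := Real.sqrt_pos.2 hr
      have hq2 : Real.sqrt (x * x + y * y) * Real.sqrt (x * x + y * y) = x * x + y * y :=
        Real.mul_self_sqrt hr.le
      set r := Real.sqrt (x * x + y * y) with hrr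
      refine ⟨_, hrot 0 1 (by decide) (by decide) (x / r) (-(y / r)) ?_ G h,
        hS.mv (Nat.zero_le _) (le_trans (by decide) h2m) _ _ _ _, fun n hn => ?_, ?_⟩
      · have hr0 := hq.ne'
        field_simp
        rw [sq r, hq2]
        ring
      · change mv 0 1 _ _ _ _ (G col) n = 0
        rw [mv_of_ne (fun h => by rw [h] at hn; exact absurd hn (by decide))
          (fun h => by rw [h] at hn; exact absurd hn (by decide))]
        exact hc n hn
      · change mv 0 1 _ _ _ _ (G col) 1 = 0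
        rw [mv_right (by decide)]
        change -(y / r) * x + x / r * y = 0
        ring
  -- the boost
  have hN := hO G1 h1 col col
  rw [if_pos rfl, hcol] at hN
  set x := G1 col 0 with hx
  set z := G1 col 2 with hz
  have e3 := hc1 3 (by decide)
  have e4 := hc1 4 (by decide)
  have e5 := hc1 5 (by decide)
  have e6 := hc1 6 (by decide)
  have e7 := hc1 7 (by decide)
  have hxz : z * z - x * x = 1 := by
    rw [bf, Fin.sum_univ_eight, e3, e4, e5, e6, e7, h01, ← hx, ← hz] at hN
    have s0 : sg 0 = 1 := rfl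
    have s2 : sg 2 = -1 := rfl
    rw [s0, s2] at hN
    linarith
  have hz0 : z ≠ 0 := by
    intro h0
    rw [h0] at hxz
    nlinarith [mul_self_nonneg x]
  set t : ℝ := if 0 < z then 1 else -1 with ht
  have htt : t * t = 1 := by
    rw [ht]
    split_ifs <;> norm_num
  have htz : 0 < t * z := by
    rw [ht]
    split_ifs with h5
    · linarith
    · have : z < 0 := lt_of_le_of_ne (not_lt.1 h5) hz0
      linarith
  refine ⟨_, t, hboo (t * z) (-(t * x)) ?_ htz G1 h1, hS1.mv (Nat.zero_le _) h2m _ _ _ _, ?_, ?_⟩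
  · linear_combination (z * z - x * x) * htt + hxz
  · rw [ht]
    split_ifs
    · exact Or.inl rfl
    · exact Or.inr rfl
  · change mv 0 2 _ _ _ _ (G1 col) = _
    funext n
    by_cases hn0 : n = 0
    · subst hn0
      rw [mv_left, Pi.smul_apply, Pi.single_eq_of_ne (by decide)]
      change t * z * x + -(t * x) * z = t • 0
      rw [smul_zero]
      ring
    · by_cases hn2 : n = 2
      · subst hn2
        rw [mv_right (by decide), Pi.smul_apply, Pi.single_eq_same]
        change -(t * x) * x + t * z * z = t • 1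
        rw [smul_eq_mul]
        linear_combination t * hxz
      · rw [mv_of_ne hn0 hn2, Pi.smul_apply, Pi.single_eq_of_ne hn2, smul_zero]
        by_cases hn1 : n = 1
        · rw [hn1]
          exact h01
        · refine hc1 n ?_
          have a0 : n.val ≠ 0 := fun h => hn0 (Fin.ext h)
          have a1 : n.val ≠ 1 := fun h => hn1 (Fin.ext h)
          have a2 : n.val ≠ 2 := fun h => hn2 (Fin.ext h)
          omega

omit hboo in
/-- A basis vector can be moved up. -/
theorem up1 {m t : ℕ} (ht : 1 < t) (htm : t + 1 ≤ m) (hm : m < 8) (col : Fin 8) {e : ℝ}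
    (he : e = 1 ∨ e = -1) {G : Fin 8 → Fin 8 → ℝ} (h : P G) (hS : Std m G)
    (hc : G col = e • Pi.single (⟨t, by omega⟩ : Fin 8) (1 : ℝ)) :
    ∃ G', P G' ∧ Std m G' ∧ G' col = Pi.single (⟨t + 1, by omega⟩ : Fin 8) (1 : ℝ) := by
  set i : Fin 8 := ⟨t, by omega⟩ with hi
  set j : Fin 8 := ⟨t + 1, by omega⟩ with hj
  have hij : i ≠ j := fun h => by
    have := congrArg Fin.val h
    simp only [hi, hj] at this
    omega
  have hee : e * e = 1 := by
    rcases he with rfl | rfl <;> norm_num
  refine ⟨_, hrot i j rfl (by simp only [hi]; omega) 0 e (by linarith) G h,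
    hS.mv (by simp only [hi]; omega) (by simp only [hj]; omega) _ _ _ _, ?_⟩
  change mv i j _ _ _ _ (G col) = _
  rw [hc]
  funext n
  by_cases hni : n = i
  · rw [hni, mv_left, Pi.smul_apply, Pi.smul_apply, Pi.single_eq_of_ne hij,
      Pi.single_eq_of_ne hij.symm, smul_zero]
    ring
  · by_cases hnj : n = j
    · rw [hnj, mv_right hij, Pi.smul_apply, Pi.smul_apply, Pi.single_eq_same,
        Pi.single_eq_of_ne hij.symm, smul_zero, Pi.single_eq_same, smul_eq_mul]
      linarith
    · rw [mv_of_ne hni hnj, Pi.smul_apply, Pi.single_eq_of_ne hni, smul_zero,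
        Pi.single_eq_of_ne hnj]

omit hboo in
theorem up {m : ℕ} (hm : m < 8) (col : Fin 8) : ∀ (d t : ℕ) (ht : t < 8), 1 < t → t + d = m →
    ∀ {e : ℝ}, (e = 1 ∨ e = -1 ∧ 0 < d) → ∀ {G : Fin 8 → Fin 8 → ℝ}, P G → Std m G →
    G col = e • Pi.single (⟨t, ht⟩ : Fin 8) (1 : ℝ) →
    ∃ G', P G' ∧ Std m G' ∧ G' col = Pi.single (⟨m, hm⟩ : Fin 8) (1 : ℝ) := by
  intro d
  induction d with
  | zero =>
    intro t ht _ htm e he G h hS hc
    have he1 : e = 1 := by
      rcases he with h1 | h1
      · exact h1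
      · exact absurd h1.2 (by omega)
    rw [he1, one_smul] at hc
    have : (⟨m, hm⟩ : Fin 8) = ⟨t, ht⟩ := Fin.ext (by simp only; omega)
    rw [this]
    exact ⟨G, h, hS, hc⟩
  | succ d ih =>
    intro t ht h1t htm e he G h hS hc
    obtain ⟨G1, h1, h2, h3⟩ := up1 hrot h1t (by omega) hm col
      (he.imp id And.left) h hS hc
    exact ih (t + 1) (by omega) (by omega) (by omega) (e := 1) (Or.inl rfl) h1 h2
      (by rw [h3, one_smul])

theorem exists_std (hO : ∀ G, P G → ∀ i j, bf (G i) (G j) = if i = j then sg i else 0)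
    {G : Fin 8 → Fin 8 → ℝ} (h : P G) : ∀ d : ℕ, d ≤ 5 → ∃ G', P G' ∧ Std (7 - d) G' := by
  intro d
  induction d with
  | zero =>
    intro _
    exact ⟨G, h, fun j hj => absurd j.isLt (by omega)⟩
  | succ d ih =>
    intro hd
    obtain ⟨G1, h1, hS1⟩ := ih (by omega)
    set m := 7 - d with hm
    have hm8 : m < 8 := by omega
    have hm2 : 2 < m := by omega
    have hsupp : ∀ j : Fin 8, m < j.val → G1 ⟨m, hm8⟩ j = 0 := by
      intro j hj
      have h2 := hO G1 h1 ⟨m, hm8⟩ j
      rw [if_neg (fun h => by rw [← h] at hj; exact absurd hj (lt_irrefl _)), hS1 j hj] at h2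
      have h3 := bf_single (G1 ⟨m, hm8⟩) j 1
      rw [one_smul, h2, mul_one] at h3
      exact (mul_eq_zero.1 h3.symm).resolve_left (sg_ne j)
    obtain ⟨G2, h2, hS2, hc2⟩ := down hrot hm8 ⟨m, hm8⟩ (m - 2) m (by omega) le_rfl h1 hS1 hsupp
    obtain ⟨G3, t, h3, hS3, ht, hc3⟩ := mid1 hrot hboo hm2.le hO ⟨m, hm8⟩
      (sg_neg (by simp only; omega)) h2 hS2 hc2
    obtain ⟨G4, h4, hS4, hc4⟩ := up hrot hm8 ⟨m, hm8⟩ (m - 2) 2 (by decide) (by decide)
      (by omega) (e := t) (ht.imp id fun h => ⟨h, by omega⟩) h3 hS3 hc3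
    refine ⟨G4, h4, fun j hj => ?_⟩
    rcases Nat.lt_or_ge m j.val with h5 | h5
    · exact hS4 j h5
    · have : j = ⟨m, hm8⟩ := Fin.ext (by simp only; omega)
      rw [this]
      exact hc4

/-- The elimination, with moves in coordinate planes. -/
theorem elim_mv (hO : ∀ G, P G → ∀ i j, bf (G i) (G j) = if i = j then sg i else 0)
    {G : Fin 8 → Fin 8 → ℝ} (h : P G) : ∃ s t : ℝ, (s = 1 ∨ s = -1) ∧ (t = 1 ∨ t = -1) ∧
      P (fun j => (![1, s, t, 1, 1, 1, 1, 1] : Fin 8 → ℝ) j • Pi.single j 1) := by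
  obtain ⟨G1, h1, hS1⟩ := exists_std hrot hboo hO h 5 le_rfl
  change Std 2 G1 at hS1
  have orth : ∀ {G : Fin 8 → Fin 8 → ℝ}, P G → ∀ {i j : Fin 8}, i ≠ j → ∀ {r : ℝ}, r ≠ 0 →
      G j = r • Pi.single j (1 : ℝ) → G i j = 0 := by
    intro G hG i j hij r hr he
    have h2 := hO G hG i j
    rw [if_neg hij, he, bf_single] at h2
    exact (mul_eq_zero.1 ((mul_eq_zero.1 h2).resolve_right hr)).resolve_left (sg_ne j)
  have supp : ∀ {G : Fin 8 → Fin 8 → ℝ}, P G → Std 2 G → ∀ {i : Fin 8}, i.val ≤ 2 →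
      ∀ j : Fin 8, 2 < j.val → G i j = 0 := by
    intro G hG hS i hi j hj
    refine orth hG (fun h => by rw [h] at hi; omega) one_ne_zero (by rw [hS j hj, one_smul])
  -- the column `2`
  obtain ⟨G2, t, h2, hS2, ht, hc2⟩ := mid1 hrot hboo le_rfl hO 2 rfl h1 hS1
    (supp h1 hS1 (by decide))
  have ht0 : t ≠ 0 := by
    rcases ht with rfl | rfl <;> norm_num
  have htt : t * t = 1 := by
    rcases ht with rfl | rfl <;> norm_num
  -- the column `0`
  set x := G2 0 0 with hx
  set y := G2 0 1 with hy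
  have hN := hO G2 h2 0 0
  rw [if_pos rfl, bf, Fin.sum_univ_eight, supp h2 hS2 (i := 0) (by decide) 3 (by decide),
    supp h2 hS2 (i := 0) (by decide) 4 (by decide), supp h2 hS2 (i := 0) (by decide) 5 (by decide),
    supp h2 hS2 (i := 0) (by decide) 6 (by decide), supp h2 hS2 (i := 0) (by decide) 7 (by decide),
    orth h2 (i := 0) (j := 2) (by decide) ht0 hc2, ← hx, ← hy] at hN
  have s0 : sg 0 = 1 := rfl
  have s1 : sg 1 = 1 := rfl
  rw [s0, s1] at hN
  have hxy : x * x + y * y = 1 := by linarith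
  have h3 := hrot 0 1 (by decide) (by decide) x (-y) (by linarith) G2 h2
  set G3 : Fin 8 → Fin 8 → ℝ := fun n => mv 0 1 x (- -y) (-y) x (G2 n) with hG3
  have hS3 : Std 2 G3 := hS2.mv (Nat.zero_le _) (by decide) _ _ _ _
  have hc3 : G3 2 = t • Pi.single 2 (1 : ℝ) := by
    change mv 0 1 _ _ _ _ (G2 2) = _
    rw [hc2]
    funext n
    by_cases hn0 : n = 0
    · subst hn0
      rw [mv_left, Pi.smul_apply, Pi.smul_apply, Pi.single_eq_of_ne (by decide),
        Pi.single_eq_of_ne (by decide), smul_zero]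
      ring
    · by_cases hn1 : n = 1
      · subst hn1
        rw [mv_right (by decide), Pi.smul_apply, Pi.smul_apply, Pi.single_eq_of_ne (by decide),
          Pi.single_eq_of_ne (by decide), smul_zero]
        ring
      · rw [mv_of_ne hn0 hn1]
  have hc0 : G3 0 = (1 : ℝ) • Pi.single 0 (1 : ℝ) := by
    change mv 0 1 _ _ _ _ (G2 0) = _
    funext n
    by_cases hn0 : n = 0
    · subst hn0
      rw [mv_left, Pi.smul_apply, Pi.single_eq_same, smul_eq_mul, ← hx, ← hy]
      linarith
    · by_cases hn1 : n = 1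
      · subst hn1
        rw [mv_right (by decide), Pi.smul_apply, Pi.single_eq_of_ne (by decide), smul_zero,
          ← hx, ← hy]
        ring
      · rw [mv_of_ne hn0 hn1, Pi.smul_apply, Pi.single_eq_of_ne hn0, smul_zero]
        by_cases hn2 : n = 2
        · rw [hn2]
          exact orth h2 (by decide) ht0 hc2
        · have a0 : n.val ≠ 0 := fun h => hn0 (Fin.ext h)
          have a1 : n.val ≠ 1 := fun h => hn1 (Fin.ext h)
          have a2 : n.val ≠ 2 := fun h => hn2 (Fin.ext h)
          exact supp h2 hS2 (i := 0) (by decide) n (by omega)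
  -- the column `1`
  have g0 : G3 1 0 = 0 := orth h3 (by decide) one_ne_zero hc0
  have g2 : G3 1 2 = 0 := orth h3 (by decide) ht0 hc3
  have hN1 := hO G3 h3 1 1
  rw [if_pos rfl, bf, Fin.sum_univ_eight, supp h3 hS3 (i := 1) (by decide) 3 (by decide),
    supp h3 hS3 (i := 1) (by decide) 4 (by decide), supp h3 hS3 (i := 1) (by decide) 5 (by decide),
    supp h3 hS3 (i := 1) (by decide) 6 (by decide), supp h3 hS3 (i := 1) (by decide) 7 (by decide),
    g0, g2, s0, s1] at hN1
  have hs : G3 1 1 = 1 ∨ G3 1 1 = -1 := by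
    have : G3 1 1 * G3 1 1 = 1 := by linarith
    exact mul_self_eq_one_iff.1 this
  refine ⟨G3 1 1, t, hs, ht, ?_⟩
  have e : (fun j => (![1, G3 1 1, t, 1, 1, 1, 1, 1] : Fin 8 → ℝ) j • Pi.single j (1 : ℝ)) =
      G3 := by
    funext j
    by_cases hj : 2 < j.val
    · rw [hS3 j hj]
      have : (![1, G3 1 1, t, 1, 1, 1, 1, 1] : Fin 8 → ℝ) j = 1 := by
        fin_cases j <;> simp_all
      rw [this, one_smul]
    · have hj' : j = 0 ∨ j = 1 ∨ j = 2 := by
        have : j.val = 0 ∨ j.val = 1 ∨ j.val = 2 := by omega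
        rcases this with h | h | h
        · exact Or.inl (Fin.ext h)
        · exact Or.inr (Or.inl (Fin.ext h))
        · exact Or.inr (Or.inr (Fin.ext h))
      rcases hj' with rfl | rfl | rfl
      · exact hc0.symm
      · change G3 1 1 • Pi.single 1 (1 : ℝ) = G3 1
        funext n
        by_cases hn1 : n = 1
        · subst hn1
          rw [Pi.smul_apply, Pi.single_eq_same, smul_eq_mul, mul_one]
        · rw [Pi.smul_apply, Pi.single_eq_of_ne hn1, smul_zero]
          by_cases hn0 : n = 0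
          · rw [hn0]
            exact g0.symm
          · by_cases hn2 : n = 2
            · rw [hn2]
              exact g2.symm
            · have a0 : n.val ≠ 0 := fun h => hn0 (Fin.ext h)
              have a1 : n.val ≠ 1 := fun h => hn1 (Fin.ext h)
              have a2 : n.val ≠ 2 := fun h => hn2 (Fin.ext h)
              exact (supp h3 hS3 (i := 1) (by decide) n (by omega)).symm
      · exact hc3.symm
  rw [e]
  exact h3

end elim

end H342

/-- **Elimination**: products of two reflections in vectors of the same norm which are supported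
in one block bring a family of eight orthogonal vectors to a diagonal one. -/
theorem elim {P : (Fin 8 → Fin 8 → ℝ) → Prop}
    (hO : ∀ G, P G → ∀ i j, bf (G i) (G j) = if i = j then sg i else 0)
    (hP : ∀ G, P G → ∀ (B : Finset (Fin 8)) (e e' : Fin 8 → ℝ), Blk B → (∀ i, i ∉ B → e i = 0) →
      (∀ i, i ∉ B → e' i = 0) → bf e e = bf e' e' → bf e e ≠ 0 →
      P (fun j => refl e' (refl e (G j))))
    {G : Fin 8 → Fin 8 → ℝ} (h : P G) : ∃ s t : ℝ, (s = 1 ∨ s = -1) ∧ (t = 1 ∨ t = -1) ∧
      P (fun j => (![1, s, t, 1, 1, 1, 1, 1] : Fin 8 → ℝ) j • Pi.single j 1) := by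
  -- the moves in coordinate planes
  have key : ∀ (B : Finset (Fin 8)) (i j : Fin 8), Blk B → i ∈ B → j ∈ B → i ≠ j → ∀ u w : ℝ,
      u * u + sg i * sg j * (w * w) = 1 → ∀ G, P G → P fun n =>
        H342.mv i j (2 * u * u - 1) (-(2 * (sg i * sg j) * u * w)) (2 * u * w)
          (1 - 2 * (sg i * sg j) * (w * w)) (G n) := by
    intro B i j hB hi hj hij u w huw G hG
    have h1 := hP G hG B ((1 : ℝ) • Pi.single i (1 : ℝ))
      (u • Pi.single i (1 : ℝ) + w • Pi.single j (1 : ℝ)) hB (fun n hn => ?_) (fun n hn => ?_)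
      ?_ ?_
    · convert h1 using 2
      exact (H342.refl_refl hij huw _).symm
    · have : n ≠ i := fun h => hn (h ▸ hi)
      rw [Pi.smul_apply, Pi.single_eq_of_ne this, smul_zero]
    · have h2 : n ≠ i := fun h => hn (h ▸ hi)
      have h3 : n ≠ j := fun h => hn (h ▸ hj)
      rw [Pi.add_apply, Pi.smul_apply, Pi.smul_apply, Pi.single_eq_of_ne h2,
        Pi.single_eq_of_ne h3, smul_zero, smul_zero, add_zero]
    · rw [H342.bf_single, H342.bf_add_right, H342.bf_single, H342.bf_single]
      simp only [Pi.add_apply, Pi.smul_apply, Pi.single_eq_same, smul_eq_mul, mul_one,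
        Pi.single_eq_of_ne hij, Pi.single_eq_of_ne hij.symm, mul_zero, add_zero, zero_add]
      have := H342.sg_sq i
      linear_combination -sg i * huw + sg j * (w * w) * this
    · rw [H342.bf_single]
      simp only [Pi.smul_apply, Pi.single_eq_same, smul_eq_mul, mul_one]
      exact H342.sg_ne i
  refine H342.elim_mv (P := P) ?_ ?_ hO h
  · intro i j hij h1 c s hcs G hG
    have hne : i ≠ j := fun h => by
      rw [h] at hij
      omega
    have hB : ∃ B : Finset (Fin 8), Blk B ∧ i ∈ B ∧ j ∈ B ∧ sg i * sg j = 1 := by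
      have hi7 : i.val < 7 := by omega
      have hc : i.val = 0 ∨ i.val = 2 ∨ i.val = 3 ∨ i.val = 4 ∨ i.val = 5 ∨ i.val = 6 := by omega
      rcases hc with h | h | h | h | h | h
      · have hi : i = 0 := Fin.ext h
        have hj : j = 1 := Fin.ext (by rw [← hij, h]; rfl)
        subst hi hj
        exact ⟨_, Or.inl rfl, by decide, by decide, by simp [sg]⟩
      · have hi : i = 2 := Fin.ext h
        have hj : j = 3 := Fin.ext (by rw [← hij, h]; rfl)
        subst hi hj
        exact ⟨_, Or.inl rfl, by decide, by decide, by simp [sg]⟩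
      · have hi : i = 3 := Fin.ext h
        have hj : j = 4 := Fin.ext (by rw [← hij, h]; rfl)
        subst hi hj
        exact ⟨_, Or.inr (Or.inl rfl), by decide, by decide, by simp [sg]⟩
      · have hi : i = 4 := Fin.ext h
        have hj : j = 5 := Fin.ext (by rw [← hij, h]; rfl)
        subst hi hj
        exact ⟨_, Or.inr (Or.inl rfl), by decide, by decide, by simp [sg]⟩
      · have hi : i = 5 := Fin.ext h
        have hj : j = 6 := Fin.ext (by rw [← hij, h]; rfl)
        subst hi hj
        exact ⟨_, Or.inr (Or.inr rfl), by decide, by decide, by simp [sg]⟩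
      · have hi : i = 6 := Fin.ext h
        have hj : j = 7 := Fin.ext (by rw [← hij, h]; rfl)
        subst hi hj
        exact ⟨_, Or.inr (Or.inr rfl), by decide, by decide, by simp [sg]⟩
    obtain ⟨B, hB1, hB2, hB3, hs⟩ := hB
    obtain ⟨u, w, h2, h3, h4⟩ := H342.exists_half hcs
    have h5 := key B i j hB1 hB2 hB3 hne u w (by rw [hs]; linarith) G hG
    have e1 : 2 * u * u - 1 = c := h3.symm
    have e2 : -(2 * (sg i * sg j) * u * w) = -s := by rw [hs, h4]; ring
    have e3 : 2 * u * w = s := h4.symm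
    have e4 : 1 - 2 * (sg i * sg j) * (w * w) = c := by rw [hs, h3]; linarith
    rw [e1, e2, e3, e4] at h5
    exact h5
  · intro c s hcs hc G hG
    obtain ⟨u, w, h2, h3, h4⟩ := H342.exists_halfb hcs hc
    have hs : sg 0 * sg 2 = -1 := by simp [sg]
    have h5 := key {0, 1, 2, 3} 0 2 (Or.inl rfl) (by decide) (by decide) (by decide) u w
      (by rw [hs]; linarith) G hG
    have e1 : 2 * u * u - 1 = c := h3.symm
    have e2 : -(2 * (sg 0 * sg 2) * u * w) = s := by rw [hs, h4]; ring
    have e3 : 2 * u * w = s := h4.symm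
    have e4 : 1 - 2 * (sg 0 * sg 2) * (w * w) = c := by rw [hs, h3]; linarith
    rw [e1, e2, e3, e4] at h5
    exact h5

end Vale.Agent.P011.D4Z.El
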