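import Vale.Agent.P011.D4Z.H342.Elim
import Vale.Agent.P011.D4Z.H493.Ev

/-!
Block D4Z (helper342): the elimination for a family of complex matrices.
-/

open Topology

set_option linter.unusedSectionVars false

namespace Vale.Agent.P011.D4Z.H342

open Vale.Agent.P011.MPQ Vale.Agent.P011.D4 Vale.Agent.P011.D4.Oct Vale.Agent.P011.D4X
open Vale.Agent.P011.D4Z

section

variable {k : Type} [Field k] [Algebra k ℂ] {a b c : kˣ}

/-- The real combinations of a family. -/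
noncomputable def cmb (e : Fin 8 → OctL ℂ a b c) (v : Fin 8 → ℝ) : OctL ℂ a b c :=
  ∑ i, ((v i : ℝ) : ℂ) • e i

theorem bil_sum_left {ι : Type} (s : Finset ι) (f : ι → OctL ℂ a b c) (y : OctL ℂ a b c) :
    bil (∑ i ∈ s, f i) y = ∑ i ∈ s, bil (f i) y := by
  classical
  induction s using Finset.induction_on with
  | empty => rw [Finset.sum_empty, Finset.sum_empty, bil_zero_left]
  | insert i s hi ih => rw [Finset.sum_insert hi, Finset.sum_insert hi, bil_add_left, ih]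

theorem bil_cmb_left (e : Fin 8 → OctL ℂ a b c) (v : Fin 8 → ℝ) (y : OctL ℂ a b c) :
    bil (cmb e v) y = ∑ i, ((v i : ℝ) : ℂ) * bil (e i) y := by
  rw [cmb, bil_sum_left]
  exact Finset.sum_congr rfl fun i _ => by rw [bil_smul_left]

/-- The family is orthogonal of signature `(2, 6)`. -/
def Orth (e : Fin 8 → OctL ℂ a b c) : Prop :=
  ∀ i j, bil (e i) (e j) = if i = j then (if i = 0 ∨ i = 1 then 2 else -2) else 0

theorem sg_cast (i : Fin 8) :
    (if i = 0 ∨ i = 1 then (2 : ℂ) else -2) = ((2 * El.sg i : ℝ) : ℂ) := by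
  fin_cases i <;> norm_num [El.sg]

theorem Orth.bil_right {e : Fin 8 → OctL ℂ a b c} (he : Orth e) (i : Fin 8) (w : Fin 8 → ℝ) :
    bil (e i) (cmb e w) = ((2 * El.sg i * w i : ℝ) : ℂ) := by
  rw [bil_comm, bil_cmb_left, Finset.sum_eq_single i]
  · rw [he i i, if_pos rfl, sg_cast, ← Complex.ofReal_mul]
    congr 1
    ring
  · intro j _ hj
    rw [he j i, if_neg hj, mul_zero]
  · intro h
    exact absurd (Finset.mem_univ i) h

theorem Orth.bil_cmb {e : Fin 8 → OctL ℂ a b c} (he : Orth e) (v w : Fin 8 → ℝ) :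
    bil (cmb e v) (cmb e w) = ((2 * El.bf v w : ℝ) : ℂ) := by
  rw [bil_cmb_left, El.bf, Finset.mul_sum, Complex.ofReal_sum]
  refine Finset.sum_congr rfl fun i _ => ?_
  rw [he.bil_right, ← Complex.ofReal_mul]
  congr 1
  ring

theorem Orth.norm_cmb {e : Fin 8 → OctL ℂ a b c} (he : Orth e) (v : Fin 8 → ℝ) :
    Oct.norm (cmb e v) = ((El.bf v v : ℝ) : ℂ) := by
  have h1 := bil_self (cmb e v)
  rw [he.bil_cmb] at h1
  have h2 : (2 : ℂ) * ((El.bf v v : ℝ) : ℂ) = 2 * Oct.norm (cmb e v) := by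
    rw [← h1]
    push_cast
    ring
  exact (mul_left_cancel₀ two_ne_zero h2).symm

theorem cmb_sub (e : Fin 8 → OctL ℂ a b c) (v w : Fin 8 → ℝ) (t : ℝ) :
    cmb e (v - t • w) = cmb e v - ((t : ℝ) : ℂ) • cmb e w := by
  rw [cmb, cmb, cmb, Finset.smul_sum, ← Finset.sum_sub_distrib]
  refine Finset.sum_congr rfl fun i _ => ?_
  rw [Pi.sub_apply, Pi.smul_apply, smul_eq_mul, Complex.ofReal_sub, Complex.ofReal_mul, sub_smul,
    smul_smul]

theorem Orth.refl_cmb {e : Fin 8 → OctL ℂ a b c} (he : Orth e) (u v : Fin 8 → ℝ) :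
    D4Z.refl (cmb e u) (cmb e v) = cmb e (El.refl u v) := by
  rw [D4Z.refl, he.bil_cmb, he.norm_cmb, El.refl, cmb_sub, ← Complex.ofReal_div]

theorem Orth.inj {e : Fin 8 → OctL ℂ a b c} (he : Orth e) {v w : Fin 8 → ℝ}
    (h : cmb e v = cmb e w) : v = w := by
  funext i
  have h1 := he.bil_right i v
  rw [h, he.bil_right i w] at h1
  have h2 := Complex.ofReal_injective h1
  have h3 : 2 * El.sg i ≠ 0 := mul_ne_zero two_ne_zero (El.H342.sg_ne i)
  exact (mul_left_cancel₀ h3 h2).symm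

theorem cmb_single (e : Fin 8 → OctL ℂ a b c) (j : Fin 8) :
    cmb e (Pi.single j 1) = e j := by
  rw [cmb, Finset.sum_eq_single j]
  · rw [Pi.single_eq_same, Complex.ofReal_one, one_smul]
  · intro i _ hi
    rw [Pi.single_eq_of_ne hi, Complex.ofReal_zero, zero_smul]
  · intro h
    exact absurd (Finset.mem_univ j) h

/-- **The elimination for a family of complex matrices.** -/
theorem one_diag {T : Type} (W0 : T) (off : T → Prop)
    {Cg : Set (T → Matrix (Fin 8) (Fin 8) ℂ)} {VRs : Set (OctL ℂ a b c)}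
    (hbil : ∀ Y ∈ Cg, ∀ x y : OctL ℂ a b c, bil (act (Y W0) x) (act (Y W0) y) = bil x y)
    (hreal : ∀ Y ∈ Cg, ∀ y ∈ VRs, act (Y W0) y ∈ VRs)
    {e : Fin 8 → OctL ℂ a b c} (he : Orth e) (hV : ∀ v, cmb e v ∈ VRs)
    (hV' : ∀ y ∈ VRs, ∃ v, y = cmb e v)
    (hB : ∀ (B : Finset (Fin 8)) (u u' : Fin 8 → ℝ), El.Blk B → (∀ i, i ∉ B → u i = 0) →
      (∀ i, i ∉ B → u' i = 0) → D4Z.Blk (cmb e u) (cmb e u'))
    (hblk : ∀ E E' : OctL ℂ a b c, E ∈ VRs → E' ∈ VRs → D4Z.Blk E E' →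
      Oct.norm E' = Oct.norm E → Oct.norm E ≠ 0 → ∃ X : T → Matrix (Fin 8) (Fin 8) ℂ,
        (∀ Y ∈ Cg, X * Y ∈ Cg) ∧ (∀ y, act (X W0) y = D4Z.refl E' (D4Z.refl E y)) ∧
        ∀ V, off V → X V = 1)
    {Y : T → Matrix (Fin 8) (Fin 8) ℂ} (hY : Y ∈ Cg) :
    ∃ Y' ∈ Cg, (∀ V, off V → Y' V = Y V) ∧ ∃ s t : ℝ, (s = 1 ∨ s = -1) ∧ (t = 1 ∨ t = -1) ∧
      ∀ j, act (Y' W0) (e j) = (((![1, s, t, 1, 1, 1, 1, 1] : Fin 8 → ℝ) j : ℝ) : ℂ) • e j := by
  have hG : ∀ Y' ∈ Cg, ∃ G : Fin 8 → Fin 8 → ℝ, ∀ j, act (Y' W0) (e j) = cmb e (G j) := by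
    intro Y' h'
    have h1 : ∀ j, ∃ v, act (Y' W0) (e j) = cmb e v := by
      intro j
      refine hV' _ (hreal Y' h' _ ?_)
      rw [← cmb_single e j]
      exact hV _
    choose G hG using h1
    exact ⟨G, hG⟩
  obtain ⟨G0, hG0⟩ := hG Y hY
  obtain ⟨s, t, hs, ht, Y', h1, h2, h3⟩ := El.elim
    (P := fun G => ∃ Y' ∈ Cg, (∀ V, off V → Y' V = Y V) ∧ ∀ j, act (Y' W0) (e j) = cmb e (G j))
    (by
      rintro G ⟨Y', h1, h2, h3⟩ i j
      have h4 := hbil Y' h1 (e i) (e j)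
      rw [h3, h3, he.bil_cmb, he i j] at h4
      by_cases hij : i = j
      · rw [if_pos hij, sg_cast] at h4
        rw [if_pos hij]
        exact mul_left_cancel₀ two_ne_zero (Complex.ofReal_injective h4)
      · rw [if_neg hij] at h4
        rw [if_neg hij]
        have h5 : 2 * El.bf (G i) (G j) = 0 := Complex.ofReal_injective (by
          rw [h4, Complex.ofReal_zero])
        exact (mul_eq_zero.1 h5).resolve_left two_ne_zero)
    (by
      rintro G ⟨Y', h1, h2, h3⟩ B u u' hB1 hu hu' hN h0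
      obtain ⟨X, x1, x2, x3⟩ := hblk (cmb e u) (cmb e u') (hV u) (hV u') (hB B u u' hB1 hu hu')
        (by rw [he.norm_cmb, he.norm_cmb, hN]) (by
          rw [he.norm_cmb]
          exact Complex.ofReal_ne_zero.2 h0)
      refine ⟨X * Y', x1 Y' h1, fun V hV => ?_, fun j => ?_⟩
      · rw [Pi.mul_apply, x3 V hV, one_mul, h2 V hV]
      · rw [Pi.mul_apply, act_mul, h3, x2, he.refl_cmb, he.refl_cmb])
    (G := G0) ⟨Y, hY, fun _ _ => rfl, hG0⟩
  refine ⟨Y', h1, h2, s, t, hs, ht, fun j => ?_⟩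
  have h4 := h3 j
  rw [h4]
  have h5 := cmb_sub e 0 (Pi.single j 1) (-(![1, s, t, 1, 1, 1, 1, 1] : Fin 8 → ℝ) j)
  have h6 : cmb e 0 = 0 := by
    rw [cmb]
    exact Finset.sum_eq_zero fun i _ => by
      rw [Pi.zero_apply, Complex.ofReal_zero, zero_smul]
  rw [neg_smul, sub_neg_eq_add, zero_add, h6, cmb_single, Complex.ofReal_neg, neg_smul,
    sub_neg_eq_add, zero_add] at h5
  exact h5

end

end Vale.Agent.P011.D4Z.H342
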