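import Vale.Agent.P011.D4Z.H342.OneA

/-!
Block D4Z (helper342): after the elimination the matrix at the first place is one or a product of
at most two reflections.
-/

open Topology

set_option linter.unusedSectionVars false

namespace Vale.Agent.P011.D4Z.H342

open Vale.Agent.P011.MPQ Vale.Agent.P011.D4 Vale.Agent.P011.D4.Oct Vale.Agent.P011.D4X
open Vale.Agent.P011.D4Z
open scoped ComplexConjugate

section

variable {k L E : Type} [Field k] [Field L] [Field E] [Algebra k L] [Algebra k E] [Algebra L E]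
  [IsScalarTower k L E] {ρ σ : E ≃ₐ[k] E} {α : E} {a b c : kˣ} {q : Lˣ} [Algebra k ℂ]

theorem JW_sum (W : E →ₐ[k] ℂ) {ι : Type} (s : Finset ι) (f : ι → OctL ℂ a b c) :
    JW W ρ α q (∑ i ∈ s, f i) = ∑ i ∈ s, JW W ρ α q (f i) := by
  classical
  induction s using Finset.induction_on with
  | empty =>
    rw [Finset.sum_empty, Finset.sum_empty]
    have h := JW_smul (W := W) (ρ := ρ) (α := α) (q := q) (0 : ℂ) (0 : OctL ℂ a b c)
    rw [map_zero, zero_smul, zero_smul] at h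
    exact h
  | insert i s hi ih => rw [Finset.sum_insert hi, Finset.sum_insert hi, JW_add, ih]

theorem cmb_mem_VR (W : E →ₐ[k] ℂ) {e : Fin 8 → OctL ℂ a b c} (h : ∀ i, e i ∈ VR W ρ α q)
    (v : Fin 8 → ℝ) : cmb e v ∈ VR W ρ α q := by
  change JW W ρ α q (cmb e v) = _ • cmb e v
  rw [cmb, JW_sum, Finset.smul_sum]
  refine Finset.sum_congr rfl fun i _ => ?_
  rw [JW_smul, Complex.conj_ofReal, h i, smul_comm]

theorem fst_sum {ι : Type} (s : Finset ι) (f : ι → OctL ℂ a b c) :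
    (∑ i ∈ s, f i).fst = ∑ i ∈ s, (f i).fst := by
  classical
  induction s using Finset.induction_on with
  | empty => rw [Finset.sum_empty, Finset.sum_empty]; rfl
  | insert i s hi ih => rw [Finset.sum_insert hi, Finset.sum_insert hi, fst_add, ih]

theorem snd_sum {ι : Type} (s : Finset ι) (f : ι → OctL ℂ a b c) :
    (∑ i ∈ s, f i).snd = ∑ i ∈ s, (f i).snd := by
  classical
  induction s using Finset.induction_on with
  | empty => rw [Finset.sum_empty, Finset.sum_empty]; rfl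
  | insert i s hi ih => rw [Finset.sum_insert hi, Finset.sum_insert hi, snd_add, ih]

/-- A coordinate of a combination vanishes if it vanishes for the members of its support. -/
theorem cmb_zero {X : Type} [AddCommMonoid X] (f : OctL ℂ a b c →+ X)
    (hf : ∀ (t : ℂ) x, f x = 0 → f (t • x) = 0) {e : Fin 8 → OctL ℂ a b c}
    {B : Finset (Fin 8)} (hB : ∀ i ∈ B, f (e i) = 0) {v : Fin 8 → ℝ} (hv : ∀ i, i ∉ B → v i = 0) :
    f (cmb e v) = 0 := by
  rw [cmb, map_sum]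
  refine Finset.sum_eq_zero fun i _ => ?_
  by_cases h : i ∈ B
  · exact hf _ _ (hB i h)
  · rw [hv i h, Complex.ofReal_zero, zero_smul, map_zero]

/-- The coordinates as additive maps. -/
noncomputable def fstA : OctL ℂ a b c →+ Qt (up ℂ a) (up ℂ b) :=
  { toFun := fun x => x.fst, map_zero' := rfl, map_add' := fun x y => fst_add x y }

/-- The coordinates as additive maps. -/
noncomputable def sndA : OctL ℂ a b c →+ Qt (up ℂ a) (up ℂ b) :=
  { toFun := fun x => x.snd, map_zero' := rfl, map_add' := fun x y => snd_add x y }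

/-- The coordinates as additive maps. -/
noncomputable def coA (i : Fin 8) : OctL ℂ a b c →+ ℂ :=
  { toFun := fun x => co8 x i
    map_zero' := by fin_cases i <;> rfl
    map_add' := fun x y => by rw [co8_add, Pi.add_apply] }

theorem coA_smul (i : Fin 8) (t : ℂ) (x : OctL ℂ a b c) (h : coA i x = 0) :
    coA i (t • x) = 0 := by
  change co8 (t • x) i = 0
  rw [co8_smul, Pi.smul_apply]
  change t • coA i x = 0
  rw [h, smul_zero]

/-- The blocks of a family. -/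
theorem blk_cmb {e : Fin 8 → OctL ℂ a b c}
    (h1 : ∀ i, i ∈ ({0, 1, 2, 3} : Finset (Fin 8)) → (e i).snd = 0)
    (h2 : ∀ i, i ∈ ({4, 5, 6, 7} : Finset (Fin 8)) → (e i).fst = 0)
    (h3 : ∀ i, i ∈ ({2, 3, 4, 5} : Finset (Fin 8)) → (e i).fst.re = 0 ∧ (e i).fst.imI = 0 ∧
      (e i).snd.imJ = 0 ∧ (e i).snd.imK = 0) (B : Finset (Fin 8)) (u u' : Fin 8 → ℝ)
    (hB : El.Blk B) (hu : ∀ i, i ∉ B → u i = 0) (hu' : ∀ i, i ∉ B → u' i = 0) :
    D4Z.Blk (cmb e u) (cmb e u') := by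
  have hs : ∀ {v : Fin 8 → ℝ}, (∀ i, i ∉ ({0, 1, 2, 3} : Finset (Fin 8)) → v i = 0) →
      (cmb e v).snd = 0 := fun {v} hv => cmb_zero (sndA (a := a) (b := b) (c := c))
    (fun t x h => by
      change (t • x).snd = 0
      change x.snd = 0 at h
      rw [snd_smul, h, smul_zero]) h1 hv
  have hf : ∀ {v : Fin 8 → ℝ}, (∀ i, i ∉ ({4, 5, 6, 7} : Finset (Fin 8)) → v i = 0) →
      (cmb e v).fst = 0 := fun {v} hv => cmb_zero (fstA (a := a) (b := b) (c := c))
    (fun t x h => by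
      change (t • x).fst = 0
      change x.fst = 0 at h
      rw [fst_smul, h, smul_zero]) h2 hv
  have hc : ∀ {v : Fin 8 → ℝ}, (∀ i, i ∉ ({2, 3, 4, 5} : Finset (Fin 8)) → v i = 0) →
      (cmb e v).fst.re = 0 ∧ (cmb e v).fst.imI = 0 ∧ (cmb e v).snd.imJ = 0 ∧
        (cmb e v).snd.imK = 0 := fun {v} hv =>
    ⟨cmb_zero (coA (a := a) (b := b) (c := c) 0) (coA_smul 0) (fun i hi => (h3 i hi).1) hv,
      cmb_zero (coA (a := a) (b := b) (c := c) 1) (coA_smul 1) (fun i hi => (h3 i hi).2.1) hv,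
      cmb_zero (coA (a := a) (b := b) (c := c) 6) (coA_smul 6) (fun i hi => (h3 i hi).2.2.1) hv,
      cmb_zero (coA (a := a) (b := b) (c := c) 7) (coA_smul 7) (fun i hi => (h3 i hi).2.2.2) hv⟩
  rcases hB with rfl | rfl | rfl
  · exact Or.inl ⟨hs hu, hs hu'⟩
  · exact Or.inr (Or.inr ⟨hc hu, hc hu'⟩)
  · exact Or.inr (Or.inl ⟨hf hu, hf hu'⟩)

/-- **The first half of the statement at one place.** -/
theorem one_first (W : E →ₐ[k] ℂ) {S : Set (E →+* ℂ)} (hW : (W : E →+* ℂ) ∈ S)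
    {R : Subgroup (OctL E a b c ≃ₗ[E] OctL E a b c)} {g : OctL E a b c ≃ₗ[E] OctL E a b c}
    (hbil : ∀ Y ∈ clg S R g, ∀ x y : OctL ℂ a b c,
      bil (act (Y ⟨W, hW⟩) x) (act (Y ⟨W, hW⟩) y) = bil x y)
    (hJ : ∀ Y ∈ clg S R g, ∀ x : OctL ℂ a b c,
      act (Y ⟨W, hW⟩) (JW W ρ α q x) = JW W ρ α q (act (Y ⟨W, hW⟩) x))
    (hmul : ∀ X ∈ cl S R, ∀ Y ∈ clg S R g, X * Y ∈ clg S R g)
    (hblk : ∀ e e' : OctL ℂ a b c, e ∈ VR W ρ α q → e' ∈ VR W ρ α q → Blk e e' →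
      Oct.norm e' = Oct.norm e → Oct.norm e ≠ 0 → ∃ X ∈ cl S R,
        (∀ y : OctL ℂ a b c, act (X ⟨W, hW⟩) y = D4Z.refl e' (D4Z.refl e y)) ∧
        ∀ V : S, V.1.comp (algebraMap k E) ≠ algebraMap k ℂ → X V = 1)
    (hbas : ∃ e : Fin 8 → OctL ℂ a b c, (∀ i, e i ∈ VR W ρ α q) ∧
      (∀ i j, bil (e i) (e j) = if i = j then (if i = 0 ∨ i = 1 then 2 else -2) else 0) ∧
      (∀ y ∈ VR W ρ α q, ∃ v : Fin 8 → ℝ, y = ∑ i, (v i : ℂ) • e i) ∧
      (∀ y : OctL ℂ a b c, ∃ v : Fin 8 → ℂ, y = ∑ i, v i • e i) ∧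
      (∀ i, i ∈ ({0, 1, 2, 3} : Finset (Fin 8)) → (e i).snd = 0) ∧
      (∀ i, i ∈ ({4, 5, 6, 7} : Finset (Fin 8)) → (e i).fst = 0) ∧
      (∀ i, i ∈ ({2, 3, 4, 5} : Finset (Fin 8)) → (e i).fst.re = 0 ∧ (e i).fst.imI = 0 ∧
        (e i).snd.imJ = 0 ∧ (e i).snd.imK = 0))
    {Y : S → Matrix (Fin 8) (Fin 8) ℂ} (hY : Y ∈ clg S R g) :
    ∃ Y' ∈ clg S R g, (∀ V : S, V.1.comp (algebraMap k E) ≠ algebraMap k ℂ → Y' V = Y V) ∧
      ∃ u v : OctL ℂ a b c, u ∈ VR W ρ α q ∧ v ∈ VR W ρ α q ∧ Oct.norm u = 1 ∧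
        Oct.norm v = -1 ∧ bil u v = 0 ∧
        ((∀ x : OctL ℂ a b c, act (Y' ⟨W, hW⟩) x = x) ∨ (∀ x, act (Y' ⟨W, hW⟩) x = D4Z.refl u x) ∨
          (∀ x, act (Y' ⟨W, hW⟩) x = D4Z.refl v x) ∨
          (∀ x, act (Y' ⟨W, hW⟩) x = D4Z.refl u (D4Z.refl v x))) := by
  obtain ⟨e, b1, b2, b3, b4, b5, b6, b7⟩ := hbas
  obtain ⟨Y', h1, h2, s, t, hs, ht, h3⟩ := one_diag (T := S) ⟨W, hW⟩
    (fun V : S => V.1.comp (algebraMap k E) ≠ algebraMap k ℂ) (Cg := clg S R g)
    (VRs := VR W ρ α q) hbil (fun Y hY y hy => by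
      change JW W ρ α q _ = _
      rw [← hJ Y hY]
      have h : JW W ρ α q y = _ := hy
      rw [h, map_smul]) b2 (cmb_mem_VR W b1) b3 (blk_cmb b5 b6 b7)
    (fun e e' he he' hB hN h0 => by
      obtain ⟨X, hX, x1, x2⟩ := hblk e e' he he' hB hN h0
      exact ⟨X, fun Y hY => hmul X hX Y hY, x1, x2⟩) hY
  have n1 : ∀ i, Oct.norm (e i) = ((El.sg i : ℝ) : ℂ) := by
    intro i
    have h := Orth.norm_cmb b2 (Pi.single i 1)
    have h' := El.H342.bf_single (Pi.single i 1) i 1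
    rw [one_smul, Pi.single_eq_same, mul_one, mul_one] at h'
    rw [cmb_single, h'] at h
    exact h
  have n2 : ∀ i, Oct.norm (e i) ≠ 0 := fun i => by
    rw [n1]
    exact Complex.ofReal_ne_zero.2 (El.H342.sg_ne i)
  have hr : ∀ i j, D4Z.refl (e i) (e j) = (if i = j then (-1 : ℂ) else 1) • e j := by
    intro i j
    rw [D4Z.refl]
    by_cases hij : i = j
    · subst hij
      rw [if_pos rfl, bil_self, mul_div_assoc, div_self (n2 i), mul_one, two_smul, neg_smul,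
        one_smul]
      abel
    · rw [if_neg hij, b2 j i, if_neg (Ne.symm hij), zero_div, zero_smul, sub_zero, one_smul]
  have hrl : ∀ (i : Fin 8) (t : ℂ) (x : OctL ℂ a b c), D4Z.refl (e i) (t • x) =
      t • D4Z.refl (e i) x := by
    intro i t x
    rw [D4Z.refl, D4Z.refl, bil_smul_left, smul_sub, smul_smul, mul_div_assoc]
  have hra : ∀ (i : Fin 8) (x y : OctL ℂ a b c), D4Z.refl (e i) (x + y) =
      D4Z.refl (e i) x + D4Z.refl (e i) y := by
    intro i x y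
    rw [D4Z.refl, D4Z.refl, D4Z.refl, bil_add_left, add_div, add_smul]
    abel
  have hr0 : ∀ i : Fin 8, D4Z.refl (e i) 0 = 0 := by
    intro i
    rw [D4Z.refl, bil_zero_left, zero_div, zero_smul, sub_zero]
  -- a linear map which agrees on the basis
  have hext : ∀ f : OctL ℂ a b c → OctL ℂ a b c, (∀ x y, f (x + y) = f x + f y) →
      (∀ (t : ℂ) x, f (t • x) = t • f x) → f 0 = 0 →
      (∀ j, act (Y' ⟨W, hW⟩) (e j) = f (e j)) → ∀ x, act (Y' ⟨W, hW⟩) x = f x := by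
    intro f fa fs f0 fe x
    obtain ⟨v, rfl⟩ := b4 x
    have hfs : ∀ s : Finset (Fin 8), f (∑ i ∈ s, v i • e i) = ∑ i ∈ s, v i • f (e i) := by
      intro s
      classical
      induction s using Finset.induction_on with
      | empty => rw [Finset.sum_empty, Finset.sum_empty, f0]
      | insert i s hi ih => rw [Finset.sum_insert hi, Finset.sum_insert hi, fa, fs, ih]
    rw [map_sum, hfs]
    exact Finset.sum_congr rfl fun i _ => by rw [map_smul, fe]
  have s1 : El.sg 1 = 1 := rfl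
  have s2 : El.sg 2 = -1 := rfl
  refine ⟨Y', h1, h2, e 1, e 2, b1 1, b1 2, by rw [n1, s1, Complex.ofReal_one],
    by rw [n1, s2, Complex.ofReal_neg, Complex.ofReal_one], by rw [b2, if_neg (by decide)], ?_⟩
  rcases hs with rfl | rfl <;> rcases ht with rfl | rfl
  · refine Or.inl (hext id (fun _ _ => rfl) (fun _ _ => rfl) rfl fun j => ?_)
    rw [h3 j, id]
    fin_cases j <;> simp
  · refine Or.inr (Or.inr (Or.inl (hext _ (hra 2) (hrl 2) (hr0 2) fun j => ?_)))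
    rw [h3 j, hr]
    fin_cases j <;> simp
  · refine Or.inr (Or.inl (hext _ (hra 1) (hrl 1) (hr0 1) fun j => ?_))
    rw [h3 j, hr]
    fin_cases j <;> simp
  · refine Or.inr (Or.inr (Or.inr (hext _ (fun x y => by rw [hra 2, hra 1])
      (fun t x => by rw [hrl 2, hrl 1]) (by rw [hr0 2, hr0 1]) fun j => ?_)))
    rw [h3 j, hr, hrl, hr]
    fin_cases j <;> simp

end

end Vale.Agent.P011.D4Z.H342
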