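import Vale.Agent.P011.D4Z.H342.OneB
import Vale.Agent.P011.D4Z.H67.Improper

/-!
Block D4Z (helper342): the statement at one place.
-/

open Topology

set_option linter.unusedSectionVars false

namespace Vale.Agent.P011.D4Z.H342

open Vale.Agent.P011.MPQ Vale.Agent.P011.D4 Vale.Agent.P011.D4.Oct Vale.Agent.P011.D4X
open Vale.Agent.P011.D4Z
open scoped ComplexConjugate

section alg

variable {F : Type} [Field F] {a b c : Fˣ}

/-- An element of the nucleus is a scalar. -/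
theorem nuc (h2 : (2 : F) ≠ 0) {p : Oct a b c} (h : ∀ u w : Oct a b c, u * (p * w) = (u * p) * w) :
    p = p.fst.re • (1 : Oct a b c) := by
  have ha : (a : F) ≠ 0 := a.ne_zero
  have hb : (b : F) ≠ 0 := b.ne_zero
  have h1 := h ⟨⟨0, 1, 0, 0⟩, 0⟩ ⟨⟨0, 0, 1, 0⟩, 0⟩
  have h3 := h ⟨⟨0, 1, 0, 0⟩, 0⟩ ⟨0, 1⟩
  have h4 := h ⟨⟨0, 0, 1, 0⟩, 0⟩ ⟨0, 1⟩
  have hz : ∀ x : F, (2 : F) * x = 0 → x = 0 := fun x hx => (mul_eq_zero.1 hx).resolve_left h2
  have e1 := congrArg (fun x : Oct a b c => x.snd.re) h1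
  have e2 := congrArg (fun x : Oct a b c => x.snd.imI) h1
  have e3 := congrArg (fun x : Oct a b c => x.snd.imJ) h1
  have e4 := congrArg (fun x : Oct a b c => x.snd.imK) h1
  have e5 := congrArg (fun x : Oct a b c => x.snd.imJ) h3
  have e6 := congrArg (fun x : Oct a b c => x.snd.imK) h3
  have e7 := congrArg (fun x : Oct a b c => x.snd.imK) h4
  simp at e1 e2 e3 e4 e5 e6 e7
  have g1 : p.snd.imK = 0 := by
    apply hz
    apply mul_left_cancel₀ (mul_ne_zero ha hb)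
    linear_combination -e1
  have g2 : p.snd.imJ = 0 := by
    apply hz
    apply mul_left_cancel₀ hb
    linear_combination -e2
  have g3 : p.snd.imI = 0 := by
    apply hz
    apply mul_left_cancel₀ ha
    linear_combination e3
  have g4 : p.snd.re = 0 := by
    apply hz
    linear_combination e4
  have g5 : p.fst.imK = 0 := by
    apply hz
    apply mul_left_cancel₀ ha
    linear_combination -e5
  have g6 : p.fst.imJ = 0 := by
    apply hz
    linear_combination -e6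
  have g7 : p.fst.imI = 0 := by
    apply hz
    linear_combination e7
  apply ext8 <;> simp [g1, g2, g3, g4, g5, g6, g7]

theorem end1 (h2 : (2 : F) ≠ 0) {A B : Oct a b c → Oct a b c}
    (h : ∀ x y : Oct a b c, star x * star y = star (A x) * star (B y))
    (hA : norm (A 1) = 1) (hB : norm (B 1) = 1) :
    ((∀ x, A x = x) ∧ ∀ x, B x = x) ∨ ((∀ x, A x = -x) ∧ ∀ x, B x = -x) := by
  have hs : ∀ x : Oct a b c, norm (star x) = norm x := fun x => norm_star x
  set p := star (A 1) with hp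
  set r := star (B 1) with hr
  have np : norm p = 1 := by rw [hp, hs, hA]
  have nr : norm r = 1 := by rw [hr, hs, hB]
  have e1 : p * r = 1 := by
    have := h 1 1
    rw [star_one, one_mul] at this
    exact this.symm
  have e2 : ∀ y, star (B y) = star p * star y := fun y => by
    have h1 := h 1 y
    rw [star_one, one_mul, ← hp] at h1
    rw [h1, star_mul_mul, np, one_smul]
  have e3 : ∀ x, star (A x) = star x * star r := fun x => by
    have h1 := h x 1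
    rw [star_one, mul_one, ← hr] at h1
    rw [h1, mul_mul_star, nr, one_smul]
  have e4 : star r = p := by
    have h1 := mul_mul_star r p
    rw [e1, one_mul, nr, one_smul] at h1
    exact h1
  have e5 : ∀ u w : Oct a b c, u * (p * w) = (u * p) * w := fun u w => by
    have h1 := h (star u) (star (p * w))
    rw [e2, e3, star_star, star_star, star_mul_mul, np, one_smul, e4] at h1
    exact h1
  obtain ⟨t, ht⟩ : ∃ t : F, p = t • (1 : Oct a b c) := ⟨_, nuc h2 e5⟩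
  have ht2 : t * t = 1 := by
    rw [ht, Oct.norm_smul, Oct.norm_one] at np
    linear_combination np
  have hps : star p = p := by
    rw [ht, star_smul_oct, star_one]
  have hAx : ∀ x, A x = t • x := fun x => by
    apply star_injective
    rw [e3, e4, ht, mul_smul_oct, mul_one, star_smul_oct]
  have hBx : ∀ x, B x = t • x := fun x => by
    apply star_injective
    rw [e2, hps, ht, smul_mul_oct, one_mul, star_smul_oct]
  rcases mul_self_eq_one_iff.1 ht2 with rfl | rfl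
  · exact Or.inl ⟨fun x => by rw [hAx, one_smul], fun x => by rw [hBx, one_smul]⟩
  · exact Or.inr ⟨fun x => by rw [hAx, neg_one_smul], fun x => by rw [hBx, neg_one_smul]⟩

end alg

section

variable {k L E : Type} [Field k] [Field L] [Field E] [Algebra k L] [Algebra k E] [Algebra L E]
  [IsScalarTower k L E] {ρ σ : E ≃ₐ[k] E} {α : E} {a b c : kˣ} {q : Lˣ} [Algebra k ℂ]

theorem act_neg_one (x : OctL ℂ a b c) :
    act (-1 : Matrix (Fin 8) (Fin 8) ℂ) x = -x := by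
  rw [act_apply, Matrix.neg_mulVec, Matrix.one_mulVec, ← neg_one_smul ℂ, of8_smul, of8_co8,
    neg_one_smul]

/-- **The statement at one place**, from the first half. -/
theorem one_place_of (W W' W'' : E →ₐ[k] ℂ) {S : Set (E →+* ℂ)} (hW : (W : E →+* ℂ) ∈ S)
    (hW' : (W' : E →+* ℂ) ∈ S) (hW'' : (W'' : E →+* ℂ) ∈ S)
    {R : Subgroup (OctL E a b c ≃ₗ[E] OctL E a b c)} {g : OctL E a b c ≃ₗ[E] OctL E a b c}
    (hbil : ∀ Y ∈ clg S R g, ∀ x y : OctL ℂ a b c,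
      bil (act (Y ⟨W, hW⟩) x) (act (Y ⟨W, hW⟩) y) = bil x y)
    (hbil' : ∀ Y ∈ clg S R g, ∀ x y : OctL ℂ a b c,
      bil (act (Y ⟨W', hW'⟩) x) (act (Y ⟨W', hW'⟩) y) = bil x y)
    (hbil'' : ∀ Y ∈ clg S R g, ∀ x y : OctL ℂ a b c,
      bil (act (Y ⟨W'', hW''⟩) x) (act (Y ⟨W'', hW''⟩) y) = bil x y)
    (hJ : ∀ Y ∈ clg S R g, ∀ x : OctL ℂ a b c,
      act (Y ⟨W, hW⟩) (JW W ρ α q x) = JW W ρ α q (act (Y ⟨W, hW⟩) x))
    (htri : ∀ Y ∈ clg S R g, ∀ x y : OctL ℂ a b c, act (Y ⟨W, hW⟩) (star x * star y) =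
      star (act (Y ⟨W', hW'⟩) x) * star (act (Y ⟨W'', hW''⟩) y))
    (hmul : ∀ X ∈ cl S R, ∀ Y ∈ clg S R g, X * Y ∈ clg S R g)
    (hblk : ∀ e e' : OctL ℂ a b c, e ∈ VR W ρ α q → e' ∈ VR W ρ α q → Blk e e' →
      Oct.norm e' = Oct.norm e → Oct.norm e ≠ 0 → ∃ X ∈ cl S R,
        (∀ y : OctL ℂ a b c, act (X ⟨W, hW⟩) y = D4Z.refl e' (D4Z.refl e y)) ∧
        ∀ V : S, V.1.comp (algebraMap k E) ≠ algebraMap k ℂ → X V = 1)
    (hbas : ∃ e : Fin 8 → OctL ℂ a b c, (∀ i, e i ∈ VR W ρ α q) ∧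
      (∀ i j, bil (e i) (e j) = if i = j then (if i = 0 ∨ i = 1 then 2 else -2) else 0) ∧
      (∀ y ∈ VR W ρ α q, ∃ v : Fin 8 → ℝ, y = ∑ i, (v i : ℂ) • e i) ∧
      (∀ y : OctL ℂ a b c, ∃ v : Fin 8 → ℂ, y = ∑ i, v i • e i) ∧
      (∀ i, i ∈ ({0, 1, 2, 3} : Finset (Fin 8)) → (e i).snd = 0) ∧
      (∀ i, i ∈ ({4, 5, 6, 7} : Finset (Fin 8)) → (e i).fst = 0) ∧
      (∀ i, i ∈ ({2, 3, 4, 5} : Finset (Fin 8)) → (e i).fst.re = 0 ∧ (e i).fst.imI = 0 ∧
        (e i).snd.imJ = 0 ∧ (e i).snd.imK = 0))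
    (hsign : ∃ X ∈ cl S R, X ⟨W, hW⟩ = 1 ∧ X ⟨W', hW'⟩ = -1 ∧ X ⟨W'', hW''⟩ = -1 ∧
      ∀ V : S, V.1.comp (algebraMap k E) ≠ algebraMap k ℂ → X V = 1)
    (hend : ∀ Y ∈ clg S R g, ∀ u v : OctL ℂ a b c, u ∈ VR W ρ α q → v ∈ VR W ρ α q →
      Oct.norm u = 1 → Oct.norm v = -1 → bil u v = 0 →
      (∀ x : OctL ℂ a b c, act (Y ⟨W, hW⟩) x = D4Z.refl u (D4Z.refl v x)) → False)
    {Y : S → Matrix (Fin 8) (Fin 8) ℂ} (hY : Y ∈ clg S R g) :
    ∃ Y' ∈ clg S R g, Y' ⟨W, hW⟩ = 1 ∧ Y' ⟨W', hW'⟩ = 1 ∧ Y' ⟨W'', hW''⟩ = 1 ∧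
      ∀ V : S, V.1.comp (algebraMap k E) ≠ algebraMap k ℂ → Y' V = Y V := by
  obtain ⟨Y1, h1, h2, u, v, hu, hv, nu, nv, huv, hc⟩ :=
    one_first W hW hbil hJ hmul hblk hbas hY
  have h20 : (2 : ℂ) ≠ 0 := two_ne_zero
  -- a reflection is impossible
  have himp : ∀ e : OctL ℂ a b c, Oct.norm e ≠ 0 →
      (∀ x : OctL ℂ a b c, act (Y1 ⟨W, hW⟩) x = D4Z.refl e x) → False := by
    intro e he hr
    refine H67.not_refl h20 he (G := fun x => act (Y1 ⟨W, hW⟩) x)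
      (U := fun x => star (act (Y1 ⟨W', hW'⟩) (star x)))
      (V := fun x => star (act (Y1 ⟨W'', hW''⟩) (star x))) (fun x y => ?_) fun x => hr x
    have h3 := htri Y1 h1 (star x) (star y)
    rw [star_star, star_star] at h3
    exact h3
  rcases hc with hc | hc | hc | hc
  · -- the identity
    have hn' : Oct.norm (act (Y1 ⟨W', hW'⟩) (1 : OctL ℂ a b c)) = 1 := by
      have h3 := hbil' Y1 h1 1 1
      rw [bil_self, bil_self, Oct.norm_one] at h3
      exact mul_left_cancel₀ h20 h3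
    have hn'' : Oct.norm (act (Y1 ⟨W'', hW''⟩) (1 : OctL ℂ a b c)) = 1 := by
      have h3 := hbil'' Y1 h1 1 1
      rw [bil_self, bil_self, Oct.norm_one] at h3
      exact mul_left_cancel₀ h20 h3
    have h4 := end1 h20 (A := fun x => act (Y1 ⟨W', hW'⟩) x)
      (B := fun x => act (Y1 ⟨W'', hW''⟩) x) (fun x y => by
        rw [← htri Y1 h1 x y, hc]) hn' hn''
    have e1 : Y1 ⟨W, hW⟩ = 1 := act_inj (a := up ℂ a) (b := up ℂ b) (c := up ℂ c)
      fun x => by rw [hc, act_one]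
    rcases h4 with ⟨hA, hB⟩ | ⟨hA, hB⟩
    · exact ⟨Y1, h1, e1, act_inj (a := up ℂ a) (b := up ℂ b) (c := up ℂ c)
        fun x => by rw [act_one]; exact hA x, act_inj (a := up ℂ a) (b := up ℂ b) (c := up ℂ c)
        fun x => by rw [act_one]; exact hB x, h2⟩
    · obtain ⟨X, hX, x1, x2, x3, x4⟩ := hsign
      have e2 : Y1 ⟨W', hW'⟩ = -1 := act_inj (a := up ℂ a) (b := up ℂ b) (c := up ℂ c)
        fun x => by rw [act_neg_one]; exact hA x
      have e3 : Y1 ⟨W'', hW''⟩ = -1 := act_inj (a := up ℂ a) (b := up ℂ b) (c := up ℂ c)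
        fun x => by rw [act_neg_one]; exact hB x
      refine ⟨X * Y1, hmul X hX Y1 h1, ?_, ?_, ?_, fun V hV => ?_⟩
      · rw [Pi.mul_apply, x1, e1, one_mul]
      · rw [Pi.mul_apply, x2, e2, neg_mul_neg, one_mul]
      · rw [Pi.mul_apply, x3, e3, neg_mul_neg, one_mul]
      · rw [Pi.mul_apply, x4 V hV, one_mul, h2 V hV]
  · exact (himp u (by rw [nu]; exact one_ne_zero) hc).elim
  · exact (himp v (by rw [nv]; exact neg_ne_zero.2 one_ne_zero) hc).elim
  · exact (hend Y1 h1 u v hu hv nu nv huv hc).elim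

end

end Vale.Agent.P011.D4Z.H342
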