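import Vale.Agent.P011.D4Z.H342.OneD
import Vale.Agent.P011.D4Z.H63.End2
import Vale.Agent.P011.D4Z.H493.TopOf

/-!
Block D4Z (helper342): the final assembly.
-/

open Topology NumberField

namespace Vale.Agent.P011.D4Z.H342

open Vale.Agent.P011.MPQ Vale.Agent.P011.D4 Vale.Agent.P011.D4.Oct Vale.Agent.P011.D4X
open Vale.Agent.P011.D4Z Vale.Agent.P011.E6

variable {k L E : Type} [Field k] [NumberField k] [Field L] [NumberField L] [Field E]
  [NumberField E] [Algebra k L] [Algebra k E] [Algebra L E]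
  [IsScalarTower k L E] [NeZero (2 : E)] {ρ σ : E ≃ₐ[k] E} {ρL : L ≃ₐ[k] L} {α : E}
  {a b c : kˣ} {q : Lˣ}

/-- **Trialitarian groups of cyclic cubic extensions**: the group is its finite residual. -/
theorem gt_top (H : Hy ρ σ ρL α a b c q) (hX : ∀ w : L →+* ℝ, w (algebraMap k L a) < 0 →
      w (algebraMap k L b) < 0 ∧ w (algebraMap k L c) < 0) :
    GT ρ σ α a b c q ≤ Rs ρ σ α a b c q :=
  H493.gt_top_of H hX fun g hg _ W hW hW' hW'' h0 h1 Y hY =>
    one_place_end H hX W hW hW' hW'' h0 h1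
      (fun X Y Z t n j _ _ hu hv nu nv r =>
        H63.end_refl H W _ _ hW.1 rfl rfl t n j hu hv nu nv r) hg hY

end Vale.Agent.P011.D4Z.H342
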