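import Vale.Agent.P011.D4Z.H342.OneI
import Vale.Agent.P011.D4Z.H63.End2I
import Vale.Agent.P011.D4Z.H68.TopI
import Vale.Agent.P011.D4Z.H714.OuterI
import Vale.Agent.P011.D4Z.H408.LimI
import Vale.Agent.P011.D4Z.H319.Lim0I

/-!
Block D4Z (helper342): the final assembly, noncyclic cubic extensions.
-/

open Topology NumberField

namespace Vale.Agent.P011.D4Z.H342

open Vale.Agent.P011.MPQ Vale.Agent.P011.D4 Vale.Agent.P011.D4.Oct Vale.Agent.P011.D4X
open Vale.Agent.P011.D4Z Vale.Agent.P011.E6 Vale.Agent.P011.D4Y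

variable {k L E : Type} [Field k] [NumberField k] [Field L] [NumberField L] [Field E]
  [NumberField E] [Algebra k L] [Algebra k E] [Algebra L E]
  [IsScalarTower k L E] [NeZero (2 : E)] {ρ σ ι : E ≃ₐ[k] E} {α : E}
  {a b c : kˣ} {q : Lˣ}

/-- **Trialitarian groups of noncyclic cubic extensions**: the group is its finite residual. -/
theorem gt_topI (H : HyI ρ σ ι α a b c q) (hX : ∀ τ : k →+* ℝ, τ a < 0 → τ b < 0 ∧ τ c < 0)
    (ho : HOdd a q) : GTI ρ σ ι α a b c q ≤ RsI ρ σ ι α a b c q :=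
  H68.gt_topI_of H hX ho fun g hg _ W hW hW' hW'' h0 h1 Y hY =>
    have _ : NeZero (2 : ℂ) := ⟨two_ne_zero⟩
    one_placeI_of H hX W hW hW' hW'' h0 h1
      (fun U hU Y hY => H714.clg_bilI H U hU hg hY) (fun U hU Y hY => H714.clg_JI U hU hg hY)
      (fun Y hY => H714.clg_triI W _ _ hW hW' hW'' rfl rfl hg hY)
      (fun W' W'' hW' hW'' h' h'' b' c' j l h X1 X2 X3 n1 n2 n3 r1 r2 r3 =>
        zlim_xI H ho W W' W'' hW hW' hW'' h' h'' h n1 n2 n3 r1 r2 r3)
      (fun {b' c' j l} h {X0} n0 r0 => zlim_0I H ho W hW h n0 r0)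
      (fun X Y Z t n j u v hu hv nu nv r =>
        H63.end_reflI H W _ _ hW.1 rfl rfl t n j hu hv nu nv r) hY

end Vale.Agent.P011.D4Z.H342
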